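import Vale.Agent.P204.Full.End.Facts
import Vale.Agent.P204.Full.Global.Pointwise

/-!
P204, step 6: pointwise bounds between the wedge ratio and the pointwise norm.
-/

namespace Vale.Agent.P204.Full

open Set Filter Metric
open scoped Manifold ContDiff Topology

universe u

variable {M : Type u} [TopologicalSpace M] [ChartedSpace E4 M]

namespace Setup

variable (S : Setup M)

theorem nrm_sq_le {w : M → E4 → E4 → ℝ} {x : M} {Q : ℝ} (hQ : 0 ≤ Q)
    (h : ∀ k, S.at_.rho k x ≠ 0 → ‖S.read k w (S.at_.chart k x)‖ ^ 2 ≤ Q) :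
    S.nrm w x ^ 2 ≤ Q := by
  have h1 : S.nrm w x ≤ Real.sqrt Q := by
    calc S.nrm w x ≤ ∑ k, S.at_.rho k x * Real.sqrt Q := by
          refine Finset.sum_le_sum fun k _ => ?_
          rcases eq_or_ne (S.at_.rho k x) 0 with h0 | h0
          · simp [h0]
          · exact mul_le_mul_of_nonneg_left (Real.le_sqrt_of_sq_le (h k h0))
              (S.at_.rho_nonneg k x)
      _ = Real.sqrt Q := by rw [← Finset.sum_mul, S.at_.rho_sum, one_mul]
  exact (pow_le_pow_left₀ (S.nrm_nonneg w x) h1 2).trans_eq (Real.sq_sqrt hQ)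

variable [IsManifold (𝓡 4) ∞ M]

theorem exists_density_bounds : ∃ d D, 0 < d ∧ 0 < D ∧ ∀ i, ∀ y ∈ closedBall (0 : E4) 3,
    d ≤ wdg (S.read i S.F.1 y) (S.read i S.F.1 y) ∧
      wdg (S.read i S.F.1 y) (S.read i S.F.1 y) ≤ D := by
  have key : ∀ i, ∃ d D, 0 < d ∧ 0 < D ∧ ∀ y ∈ closedBall (0 : E4) 3,
      d ≤ wdg (S.read i S.F.1 y) (S.read i S.F.1 y) ∧
        wdg (S.read i S.F.1 y) (S.read i S.F.1 y) ≤ D := by
    intro i
    have hF := (S.contDiffOn_read i S.F.2).continuousOn.mono (S.closedBall3_subset i)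
    have e : ∀ a b, ContinuousOn (fun y => S.read i S.F.1 y a b) (closedBall (0 : E4) 3) :=
      fun a b => (continuous_apply_apply a b).comp_continuousOn hF
    have hc : ContinuousOn (fun y => wdg (S.read i S.F.1 y) (S.read i S.F.1 y))
        (closedBall (0 : E4) 3) := by
      simp only [wdg]
      exact (((((((e 0 1).mul (e 2 3)).sub ((e 0 2).mul (e 1 3))).add
        ((e 0 3).mul (e 1 2))).add ((e 1 2).mul (e 0 3))).sub
          ((e 1 3).mul (e 0 2))).add ((e 2 3).mul (e 0 1)))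
    have hne : (closedBall (0 : E4) 3).Nonempty := nonempty_closedBall.2 (by norm_num)
    obtain ⟨a, ha, hmin⟩ := (isCompact_closedBall _ _).exists_isMinOn hne hc
    obtain ⟨b, hb, hmax⟩ := (isCompact_closedBall _ _).exists_isMaxOn hne hc
    exact ⟨_, _, S.wdg_F_pos i ha, S.wdg_F_pos i hb, fun y hy => ⟨hmin hy, hmax hy⟩⟩
  choose d D hd hD h using key
  rcases isEmpty_or_nonempty (Fin S.at_.n) with hE | hE
  · exact ⟨1, 1, one_pos, one_pos, fun i => isEmptyElim i⟩
  · obtain ⟨j, -, hj⟩ := Finset.exists_min_image Finset.univ d Finset.univ_nonempty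
    obtain ⟨k, -, hk⟩ := Finset.exists_max_image Finset.univ D Finset.univ_nonempty
    exact ⟨d j, D k, hd j, hD k, fun i y hy => ⟨(hj i (Finset.mem_univ i)).trans (h i y hy).1,
      (h i y hy).2.trans (hk i (Finset.mem_univ i))⟩⟩

theorem exists_chart_at (x : M) : ∃ i, x ∈ (S.at_.chart i).source ∧
    S.at_.chart i x ∈ closedBall (0 : E4) 3 := by
  obtain ⟨i, hi, hb⟩ := S.exists_chart_mem x
  exact ⟨i, hi, closedBall_subset_closedBall (by norm_num) (ball_subset_closedBall hb)⟩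

theorem wg_chart (i : Fin S.at_.n) {w η : M → E4 → E4 → ℝ} (hw : IsAltField w) (hη : IsAltField η)
    {x : M} (hx : x ∈ (S.at_.chart i).source) :
    wg S.F.1 w η x = 2 * wdg (S.read i w (S.at_.chart i x)) (S.read i η (S.at_.chart i x)) /
      wdg (S.read i S.F.1 (S.at_.chart i x)) (S.read i S.F.1 (S.at_.chart i x)) :=
  wg_eq_readC S.F.2.isAltField hw hη (S.at_.mem_maximal i) hx

theorem exists_abs_wg_le : ∃ C, 0 ≤ C ∧ ∀ w η : M → E4 → E4 → ℝ, IsAltField w → IsAltField η →
    ∀ x, |wg S.F.1 w η x| ≤ C * S.nrm w x * S.nrm η x := by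
  obtain ⟨C₀, hC₀, hr⟩ := S.exists_read_le_nrm
  obtain ⟨d, D, hd, -, hdd⟩ := S.exists_density_bounds
  refine ⟨12 * C₀ * C₀ / d, by positivity, fun w η hw hη x => ?_⟩
  obtain ⟨i, hi, hy⟩ := S.exists_chart_at x
  have hy4 := closedBall_subset_closedBall (show (3 : ℝ) ≤ 4 by norm_num) hy
  have h1 := hr w hw i _ hy4
  have h2 := hr η hη i _ hy4
  rw [(S.at_.chart i).left_inv hi] at h1 h2
  have hF0 : 0 < wdg (S.read i S.F.1 (S.at_.chart i x)) (S.read i S.F.1 (S.at_.chart i x)) :=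
    hd.trans_le (hdd i _ hy).1
  rw [S.wg_chart i hw hη hi, abs_div, abs_mul, abs_of_pos hF0, abs_two]
  have h3 := Heart.wdg_abs_le (S.read i w (S.at_.chart i x)) (S.read i η (S.at_.chart i x))
  have h4 := mul_le_mul h1 h2 (norm_nonneg _) (mul_nonneg hC₀.le (S.nrm_nonneg w x))
  refine (div_le_div₀ (by have := S.nrm_nonneg w x; have := S.nrm_nonneg η x; positivity) ?_ hd
    (hdd i _ hy).1).trans (le_of_eq ?_) (b := 12 * C₀ * C₀ * S.nrm w x * S.nrm η x / d)
  · nlinarith
  · ring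

theorem exists_nrm_p11_le : ∃ C, 0 ≤ C ∧ ∀ w : M → E4 → E4 → ℝ, IsAltField w → ∀ x,
    S.nrm (p11 S.J w) x ≤ C * S.nrm w x := by
  obtain ⟨C₀, hC₀, hr⟩ := S.exists_read_le_nrm
  refine ⟨33 * C₀, by positivity, fun w hw x => ?_⟩
  calc S.nrm (p11 S.J w) x ≤ ∑ k, S.at_.rho k x * (33 * C₀ * S.nrm w x) := by
        refine Finset.sum_le_sum fun k _ => ?_
        rcases eq_or_ne (S.at_.rho k x) 0 with h0 | h0
        · simp [h0]
        refine mul_le_mul_of_nonneg_left ?_ (S.at_.rho_nonneg k x)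
        obtain ⟨hs, hb⟩ := S.mem_of_rho_ne h0
        have hy : S.at_.chart k x ∈ closedBall (0 : E4) 4 :=
          closedBall_subset_closedBall (by norm_num) (ball_subset_closedBall hb)
        have hA := S.near k hy
        have h1 := hr w hw k _ hy
        rw [(S.at_.chart k).left_inv hs] at h1
        show ‖readC _ (p11 S.J w) _‖ ≤ _
        rw [readC_p11 S.isJ hw (S.at_.mem_maximal k) (S.at_.ball_subset k hy), Alg.p11C_eq]
        have h2 := norm_pullC_le (readJ (S.at_.chart k) S.J (S.at_.chart k x)) hA.norm_le_two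
          (S.read k w (S.at_.chart k x))
        simp only [Setup.read] at h1 h2
        rw [norm_smul, Real.norm_eq_abs, abs_of_pos (by norm_num : (0 : ℝ) < 1 / 2)]
        have h3 := norm_add_le (readC (S.at_.chart k) w (S.at_.chart k x))
          (pullC (readJ (S.at_.chart k) S.J (S.at_.chart k x)) (readC (S.at_.chart k) w
            (S.at_.chart k x)))
        nlinarith [norm_nonneg (readC (S.at_.chart k) w (S.at_.chart k x))]
    _ = 33 * C₀ * S.nrm w x := by rw [← Finset.sum_mul, S.at_.rho_sum, one_mul]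

/-- the wedge square controls anti-invariant forms -/
theorem exists_pm_wg_ge : ∃ C, 0 ≤ C ∧ ∀ w : M → E4 → E4 → ℝ, IsTwoForm w → ∀ x,
    S.nrm (pm S.J w) x ^ 2 ≤ C * wg S.F.1 (pm S.J w) (pm S.J w) x := by
  obtain ⟨d, D, hd, hD, hdd⟩ := S.exists_density_bounds
  refine ⟨2 * D, by positivity, fun w hw x => ?_⟩
  have ha := (isTwoForm_pm S.isJ hw).isAltField
  have key : ∀ k, x ∈ (S.at_.chart k).source → S.at_.chart k x ∈ closedBall (0 : E4) 3 →
      ‖S.read k (pm S.J w) (S.at_.chart k x)‖ ^ 2 ≤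
        2 * D * wg S.F.1 (pm S.J w) (pm S.J w) x := by
    intro k hs hy
    have hy4 := closedBall_subset_closedBall (show (3 : ℝ) ≤ 4 by norm_num) hy
    have hA := S.near k hy4
    have hb : Anti (S.read k (pm S.J w) (S.at_.chart k x)) := ha.anti_readC _ _
    have hi : Alg.AInv (readJ (S.at_.chart k) S.J (S.at_.chart k x))
        (S.read k (pm S.J w) (S.at_.chart k x)) := by
      show Alg.AInv _ (readC _ _ _)
      rw [readC_pm S.isJ hw.isAltField (S.at_.mem_maximal k) (S.at_.ball_subset k hy4)]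
      exact Alg.ainv_pmC hA.1 _
    have h := hA.wdg_pm_ge hb hi
    have hF0 := hd.trans_le (hdd k _ hy).1
    rw [S.wg_chart k ha ha hs, mul_div_assoc', le_div_iff₀ hF0]
    have h2 := (hdd k _ hy).2
    nlinarith [mul_le_mul_of_nonneg_left h2
      (sq_nonneg ‖S.read k (pm S.J w) (S.at_.chart k x)‖)]
  obtain ⟨i, hi, hy⟩ := S.exists_chart_at x
  refine S.nrm_sq_le (le_trans (sq_nonneg _) (key i hi hy)) fun k hk => ?_
  obtain ⟨hs, hb⟩ := S.mem_of_rho_ne hk
  exact key k hs (closedBall_subset_closedBall (by norm_num) (ball_subset_closedBall hb))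

theorem isSmoothFn_wg {w η : M → E4 → E4 → ℝ} (hw : IsTwoForm w) (hη : IsTwoForm η) :
    IsSmoothFn (wg S.F.1 w η) := by
  refine isSmoothFn_of_local fun p => ?_
  obtain ⟨i, hi, hy⟩ := S.exists_chart_at p
  set c := S.at_.chart i
  have ht := c.map_source hi
  refine ⟨c, S.at_.mem_maximal i, hi, ?_⟩
  have hC : ∀ {z : M → E4 → E4 → ℝ}, IsTwoForm z → ∀ a b,
      ContDiffAt ℝ ∞ (fun y => readC c z y a b) (c p) := fun hz a b =>
    (hz.contDiffOn_coef (S.at_.mem_maximal i) a b).contDiffAt (c.open_target.mem_nhds ht)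
  have hW : ∀ {z z' : M → E4 → E4 → ℝ}, IsTwoForm z → IsTwoForm z' →
      ContDiffAt ℝ ∞ (fun y => wdg (readC c z y) (readC c z' y)) (c p) := fun hz hz' => by
    simp only [wdg]
    exact ((((((hC hz 0 1).mul (hC hz' 2 3)).sub ((hC hz 0 2).mul (hC hz' 1 3))).add
      ((hC hz 0 3).mul (hC hz' 1 2))).add ((hC hz 1 2).mul (hC hz' 0 3))).sub
      ((hC hz 1 3).mul (hC hz' 0 2))).add ((hC hz 2 3).mul (hC hz' 0 1))
  refine (((contDiffAt_const (c := (2 : ℝ))).mul (hW hw hη)).div (hW S.F.2 S.F.2)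
    (S.wdg_F_pos i hy).ne').congr_of_eventuallyEq ?_
  filter_upwards [c.open_target.mem_nhds ht] with y hy'
  have h := wg_eq_readC S.F.2.isAltField hw.isAltField hη.isAltField (S.at_.mem_maximal i)
    (c.map_target hy')
  rw [c.right_inv hy'] at h
  exact h

/-- the test form of an invariant form -/
theorem exists_inv_test : ∃ C, 0 ≤ C ∧ ∀ a : Form M, ∃ η : Form M,
    p11L S.isJ η = η ∧ ∀ x, S.nrm η.1 x ≤ C * S.nrm (p11L S.isJ a).1 x ∧
      S.nrm (p11L S.isJ a).1 x ^ 2 ≤ C * wg S.F.1 (p11L S.isJ a).1 η.1 x := by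
  obtain ⟨C₁, hC₁, hw⟩ := S.exists_abs_wg_le
  obtain ⟨d, D, hd, hD, hdd⟩ := S.exists_density_bounds
  obtain ⟨c₀, hc₀, hq⟩ := S.exists_quad
  set B := S.cN 0 S.F.1
  have hB : 0 ≤ B := S.cN_nonneg 0 _
  refine ⟨C₁ * B * B + 1 + D / (2 * c₀), by positivity, fun a => ?_⟩
  set X := p11L S.isJ a
  have hXi : p11 S.J X.1 = X.1 := p11_p11 S.isJ a.2.isAltField
  have hg := S.isSmoothFn_wg X.2 S.F.2
  refine ⟨fmul (wg S.F.1 X.1 S.F.1) hg S.F - X, ?_, fun x => ⟨?_, ?_⟩⟩
  · rw [map_sub]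
    refine congrArg₂ (· - ·) (Subtype.ext ?_) (Subtype.ext hXi)
    exact p11_scalar_mul_F S _ (wg S.F.1 X.1 S.F.1) fun y u v => rfl
  · have e : (fmul (wg S.F.1 X.1 S.F.1) hg S.F - X).1 =
        smulFn (wg S.F.1 X.1 S.F.1) S.F.1 + (-1 : ℝ) • X.1 := by
      funext y u v
      simp [fmul_coe, smulFn]
      ring
    rw [e]
    refine (S.nrm_add_le _ _ x).trans ?_
    rw [S.nrm_smul, abs_neg, abs_one, one_mul]
    have h1 : S.nrm (smulFn (wg S.F.1 X.1 S.F.1) S.F.1) x =
        |wg S.F.1 X.1 S.F.1 x| * S.nrm S.F.1 x := by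
      simp only [Setup.nrm, Finset.mul_sum]
      refine Finset.sum_congr rfl fun k _ => ?_
      rcases eq_or_ne (S.at_.rho k x) 0 with h0 | h0
      · simp [h0]
      have e2 : S.read k (smulFn (wg S.F.1 X.1 S.F.1) S.F.1) (S.at_.chart k x) =
          wg S.F.1 X.1 S.F.1 x • S.read k S.F.1 (S.at_.chart k x) := by
        funext i j
        simp only [Setup.read, readC, smulFn, Pi.smul_apply, smul_eq_mul,
          (S.at_.chart k).left_inv (S.mem_of_rho_ne h0).1]
      rw [e2, norm_smul, Real.norm_eq_abs]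
      ring
    rw [h1]
    have h2 := hw X.1 S.F.1 X.2.isAltField S.F.2.isAltField x
    have h3 : S.nrm S.F.1 x ≤ B := S.nrm_le_cN 0 S.F.2 x
    have hX := S.nrm_nonneg X.1 x
    have h5 : |wg S.F.1 X.1 S.F.1 x| * S.nrm S.F.1 x ≤ C₁ * S.nrm X.1 x * B * B :=
      mul_le_mul (h2.trans (mul_le_mul_of_nonneg_left h3 (by positivity))) h3
        (S.nrm_nonneg _ x) (by positivity)
    have h6 : 0 ≤ D / (2 * c₀) := by positivity
    nlinarith [mul_nonneg h6 hX]
  · set g := wg S.F.1 X.1 S.F.1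
    have key : ∀ k, x ∈ (S.at_.chart k).source → S.at_.chart k x ∈ closedBall (0 : E4) 3 →
        ‖S.read k X.1 (S.at_.chart k x)‖ ^ 2 ≤
          D / (2 * c₀) * wg S.F.1 X.1 (fmul g hg S.F - X).1 x := by
      intro k hs hy
      have hy4 := closedBall_subset_closedBall (show (3 : ℝ) ≤ 4 by norm_num) hy
      have ht := S.at_.ball_subset k hy4
      have hinv : Alg.Inv (readJ (S.at_.chart k) S.J (S.at_.chart k x))
          (S.read k X.1 (S.at_.chart k x)) := by
        show Alg.Inv _ (readC _ (p11 S.J a.1) _)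
        rw [readC_p11 S.isJ a.2.isAltField (S.at_.mem_maximal k) ht]
        exact Alg.inv_p11C (S.near k hy4).1 _
      have h := hq k _ hy _ (X.2.isAltField.anti_readC _ _) hinv
      have e : (fmul g hg S.F - X).1 = smulFn g S.F.1 + (-1 : ℝ) • X.1 := by
        funext y u v
        simp [fmul_coe, smulFn]
        ring
      rw [e, wg_add_right, wg_smul_right, wg_comm _ X.1 (smulFn g S.F.1), wg_smulFn_left,
        wg_comm _ S.F.1 X.1]
      simp only [g, S.wg_chart k X.2.isAltField S.F.2.isAltField hs,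
        S.wg_chart k X.2.isAltField X.2.isAltField hs]
      set G := S.read k S.F.1 (S.at_.chart k x)
      set b := S.read k X.1 (S.at_.chart k x)
      have hG : 0 < wdg G G := hd.trans_le (hdd k _ hy).1
      have e2 : 2 * wdg b G / wdg G G * (2 * wdg b G / wdg G G) +
          -1 * (2 * wdg b b / wdg G G) =
          2 / wdg G G * (2 * wdg b G ^ 2 / wdg G G - wdg b b) := by
        field_simp
        ring
      rw [e2]
      have h2 : c₀ * ‖b‖ ^ 2 * (2 / D) ≤
          2 / wdg G G * (2 * wdg b G ^ 2 / wdg G G - wdg b b) := by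
        rw [mul_comm]
        exact mul_le_mul (div_le_div_of_nonneg_left (by norm_num) hG (hdd k _ hy).2) h
          (by positivity) (by positivity)
      refine le_trans (le_of_eq ?_) (mul_le_mul_of_nonneg_left h2 (by positivity))
      field_simp
    obtain ⟨i, hi, hy⟩ := S.exists_chart_at x
    have hi' := key i hi hy
    have hnn : 0 ≤ wg S.F.1 X.1 (fmul g hg S.F - X).1 x := by
      by_contra hn
      rw [not_le] at hn
      have := mul_neg_of_pos_of_neg (show 0 < D / (2 * c₀) by positivity) hn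
      linarith [sq_nonneg ‖S.read i X.1 (S.at_.chart i x)‖]
    have h5 : S.nrm X.1 x ^ 2 ≤ D / (2 * c₀) * wg S.F.1 X.1 (fmul g hg S.F - X).1 x := by
      refine S.nrm_sq_le (le_trans (sq_nonneg _) hi') fun k hk => ?_
      obtain ⟨hs, hb⟩ := S.mem_of_rho_ne hk
      exact key k hs (closedBall_subset_closedBall (by norm_num) (ball_subset_closedBall hb))
    refine h5.trans (mul_le_mul_of_nonneg_right ?_ hnn)
    linarith [mul_nonneg (mul_nonneg hC₁ hB) hB]

end Setup

end Vale.Agent.P204.Full
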