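import Vale.Agent.P204.Full.End.Pointwise

/-!
P204, step 6: the reflected wedge square is uniformly positive on invariant forms, and continuity
of the pointwise norm.
-/

namespace Vale.Agent.P204.Full

open Set Filter Metric
open scoped Manifold ContDiff Topology

universe u

variable {M : Type u} [TopologicalSpace M] [ChartedSpace E4 M] [IsManifold (𝓡 4) ∞ M]

namespace Setup

variable (S : Setup M)

theorem read_F_inv (i : Fin S.at_.n) {y : E4} (hy : y ∈ closedBall (0 : E4) 4) :
    Alg.Inv (readJ (S.at_.chart i) S.J y) (S.read i S.F.1 y) := by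
  have hA := S.near_readJ i hy
  have h : S.read i S.F.1 y = p11C (readJ (S.at_.chart i) S.J y) (S.read i S.F.1 y) := by
    conv_lhs => rw [← S.F_inv]
    exact readC_p11 S.isJ S.F.2.isAltField (S.at_.mem_maximal i) (S.at_.ball_subset i hy)
  rw [h]
  exact Alg.inv_p11C hA.1 _

theorem wdg_F_pos (i : Fin S.at_.n) {y : E4} (hy : y ∈ closedBall (0 : E4) 3) :
    0 < wdg (S.read i S.F.1 y) (S.read i S.F.1 y) := by
  obtain ⟨m, hm, hF⟩ := S.exists_F_lower
  have hy4 := closedBall_subset_closedBall (show (3 : ℝ) ≤ 4 by norm_num) hy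
  have hA := S.near_readJ i hy4
  have ha := S.F.2.isAltField.anti_readC (S.at_.chart i) y
  have hp : Alg.Pos (readJ (S.at_.chart i) S.J y) (S.read i S.F.1 y) := fun v =>
    (mul_nonneg hm.le (sq_nonneg ‖v‖)).trans (hF i y hy v)
  have h := hA.norm_le_wdg ha (S.read_F_inv i hy4) hp ha hm.le (hF i y hy)
  have hne : S.read i S.F.1 y ≠ 0 := fun h0 => by
    have h1 := S.F_pos_read i hy4 (ξ := fun _ => 1) (fun h => one_ne_zero (congrFun h 0))
    simp [h0, Alg.ev2] at h1
  have h2 := mul_pos hm (norm_pos_iff.2 hne)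
  simp only [Setup.read] at h2 ⊢
  linarith

/-- the reflected square controls invariant coefficients -/
theorem exists_quad : ∃ c, 0 < c ∧ ∀ i, ∀ y ∈ closedBall (0 : E4) 3, ∀ b : C2, Anti b →
    Alg.Inv (readJ (S.at_.chart i) S.J y) b →
      c * ‖b‖ ^ 2 ≤ 2 * wdg b (S.read i S.F.1 y) ^ 2 /
        wdg (S.read i S.F.1 y) (S.read i S.F.1 y) - wdg b b := by
  have key : ∀ i, ∃ c, 0 < c ∧ ∀ y ∈ closedBall (0 : E4) 3, ∀ b : C2, Anti b →
      Alg.Inv (readJ (S.at_.chart i) S.J y) b →
        c * ‖b‖ ^ 2 ≤ 2 * wdg b (S.read i S.F.1 y) ^ 2 /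
          wdg (S.read i S.F.1 y) (S.read i S.F.1 y) - wdg b b := by
    intro i
    set q : E4 × C2 → ℝ := fun p => 2 * wdg p.2 (S.read i S.F.1 p.1) ^ 2 /
      wdg (S.read i S.F.1 p.1) (S.read i S.F.1 p.1) - wdg p.2 p.2
    set g : E4 × C2 → C2 × C2 := fun p =>
      (fun a b => p.2 b a + p.2 a b, pullC (readJ (S.at_.chart i) S.J p.1) p.2 - p.2)
    set U : Set (E4 × C2) := closedBall (0 : E4) 3 ×ˢ sphere (0 : C2) 1
    set K : Set (E4 × C2) := U ∩ g ⁻¹' {0}
    have hsub : closedBall (0 : E4) 3 ⊆ (S.at_.chart i).target := S.closedBall3_subset i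
    have hF : ContinuousOn (fun p : E4 × C2 => S.read i S.F.1 p.1) U :=
      ((S.contDiffOn_read i S.F.2).continuousOn.mono hsub).comp continuousOn_fst fun p hp => hp.1
    have hA : ∀ a b, ContinuousOn (fun p : E4 × C2 => readJ (S.at_.chart i) S.J p.1 a b) U :=
      fun a b => ((contDiffOn_readJ S.isJ (S.at_.mem_maximal i) a b).continuousOn.mono hsub).comp
        continuousOn_fst fun p hp => hp.1
    have hb : ∀ a b, ContinuousOn (fun p : E4 × C2 => p.2 a b) U := fun a b =>
      ((continuous_apply_apply a b).comp continuous_snd).continuousOn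
    have hwdg : ∀ {f h : E4 × C2 → C2}, ContinuousOn f U → ContinuousOn h U →
        ContinuousOn (fun p => wdg (f p) (h p)) U := fun {f h} hf hh => by
      have e : ∀ {f : E4 × C2 → C2}, ContinuousOn f U → ∀ a b, ContinuousOn (fun p => f p a b) U :=
        fun hf a b => (continuous_apply_apply a b).comp_continuousOn hf
      simp only [wdg]
      exact (((((((e hf 0 1).mul (e hh 2 3)).sub ((e hf 0 2).mul (e hh 1 3))).add
        ((e hf 0 3).mul (e hh 1 2))).add ((e hf 1 2).mul (e hh 0 3))).sub
          ((e hf 1 3).mul (e hh 0 2))).add ((e hf 2 3).mul (e hh 0 1)))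
    have hq : ContinuousOn q U :=
      ((((hwdg continuous_snd.continuousOn hF).pow 2).const_smul (2 : ℝ)).congr
        (fun p _ => by simp) |>.div (hwdg hF hF) fun p hp => (S.wdg_F_pos i hp.1).ne').sub
          (hwdg continuous_snd.continuousOn continuous_snd.continuousOn)
    have hg : ContinuousOn g U := by
      refine ContinuousOn.prodMk (continuousOn_pi.2 fun a => continuousOn_pi.2 fun b =>
        (hb b a).add (hb a b)) (continuousOn_pi.2 fun a => continuousOn_pi.2 fun b => ?_)
      simp only [Pi.sub_apply, pullC]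
      exact (continuousOn_finset_sum _ fun c _ => continuousOn_finset_sum _ fun d _ =>
        ((hA c a).mul (hA d b)).mul (hb c d)).sub (hb a b)
    have hK : IsCompact K := IsCompact.of_isClosed_subset
      ((isCompact_closedBall _ _).prod (isCompact_sphere _ _))
      (hg.preimage_isClosed_of_isClosed (isClosed_closedBall.prod isClosed_sphere)
        isClosed_singleton) inter_subset_left
    have hmem : ∀ y ∈ closedBall (0 : E4) 3, ∀ b : C2, Anti b →
        Alg.Inv (readJ (S.at_.chart i) S.J y) b → b ≠ 0 → (y, ‖b‖⁻¹ • b) ∈ K := by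
      intro y hy b hb hi hne
      refine ⟨⟨hy, by simp [norm_smul, hne]⟩, ?_⟩
      refine Set.mem_singleton_iff.2 (Prod.ext ?_ ?_)
      · funext a c
        simp [g, hb a c]
      · simp only [g, Prod.snd_zero, Alg.pullC_smul, show pullC _ b = b from hi, sub_self]
    rcases K.eq_empty_or_nonempty with hE | hne
    · refine ⟨1, one_pos, fun y hy b hb hi => ?_⟩
      have h0 : b = 0 := by
        by_contra hne
        simpa [hE] using hmem y hy b hb hi hne
      subst h0
      simp [wdg]
    · obtain ⟨p, hp, hmin⟩ := hK.exists_isMinOn hne (hq.mono inter_subset_left)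
      have hpK : g p = 0 := hp.2
      have hp4 := closedBall_subset_closedBall (show (3 : ℝ) ≤ 4 by norm_num) hp.1.1
      have hpos : 0 < q p := Alg.inv_dual (S.near_readJ i hp4)
        (fun a c => by
          have := congrFun (congrFun (congrArg Prod.fst hpK) a) c
          simp [g] at this
          linarith)
        (sub_eq_zero.1 (congrArg Prod.snd hpK))
        (S.F.2.isAltField.anti_readC _ _) (S.read_F_inv i hp4)
        (fun v hv => S.F_pos_read i hp4 hv)
        (norm_ne_zero_iff.1 (by rw [mem_sphere_zero_iff_norm.1 hp.1.2]; norm_num))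
      refine ⟨q p, hpos, fun y hy b hb hi => ?_⟩
      rcases eq_or_ne b 0 with rfl | hne'
      · simp [wdg]
      · have hn : 0 < ‖b‖ := norm_pos_iff.2 hne'
        have h := hmin (hmem y hy b hb hi hne')
        simp only [Set.mem_setOf_eq, q, Alg.wdg_smul_left, Alg.wdg_smul_right] at h ⊢
        have e : 2 * (‖b‖⁻¹ * wdg b (S.read i S.F.1 y)) ^ 2 /
            wdg (S.read i S.F.1 y) (S.read i S.F.1 y) - ‖b‖⁻¹ * (‖b‖⁻¹ * wdg b b) =
            (2 * wdg b (S.read i S.F.1 y) ^ 2 /
              wdg (S.read i S.F.1 y) (S.read i S.F.1 y) - wdg b b) / ‖b‖ ^ 2 := by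
          field_simp
        rw [e, le_div_iff₀ (pow_pos hn 2)] at h
        exact h
  choose c hc0 hc using key
  rcases isEmpty_or_nonempty (Fin S.at_.n) with h | h
  · exact ⟨1, one_pos, fun i => isEmptyElim i⟩
  · obtain ⟨j, -, hj⟩ := Finset.exists_min_image Finset.univ c Finset.univ_nonempty
    exact ⟨c j, hc0 j, fun i y hy b hb hi =>
      (mul_le_mul_of_nonneg_right (hj i (Finset.mem_univ i)) (sq_nonneg _)).trans (hc i y hy b hb hi)⟩

theorem continuous_nrm_of_form {w : M → E4 → E4 → ℝ} (hw : IsTwoForm w) :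
    Continuous (S.nrm w) := by
  refine continuous_finset_sum _ fun i _ => continuous_iff_continuousAt.2 fun x => ?_
  by_cases hx : x ∈ tsupport (S.at_.rho i)
  · obtain ⟨hs, hy⟩ := S.at_.rho_support i hx
    have h1 : ContinuousAt (fun z => ‖S.read i w (S.at_.chart i z)‖) x :=
      (((S.contDiffOn_read i hw).continuousOn.continuousAt
        ((S.at_.chart i).open_target.mem_nhds ((S.at_.chart i).map_source hs))).comp
          ((S.at_.chart i).continuousAt hs)).norm
    exact (S.at_.rho_smooth i).continuous.continuousAt.mul h1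
  · refine (continuousAt_const (y := (0 : ℝ))).congr ?_
    filter_upwards [notMem_tsupport_iff_eventuallyEq.1 hx] with z hz
    simp [hz]

end Setup

end Vale.Agent.P204.Full
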