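import Vale.Agent.P204.Full.End.Tools
import Vale.Agent.P204.Full.End.Quad
import Vale.Agent.P204.Full.Global.Exact

/-!
P204, step 6: the fields of `EndTools` which need no integration.
-/

namespace Vale.Agent.P204.Full

open Set Filter Metric
open scoped Manifold ContDiff Topology

universe u

variable {M : Type u} [TopologicalSpace M] [ChartedSpace E4 M] [IsManifold (𝓡 4) ∞ M]

namespace Setup

variable (S : Setup M)

theorem isInvPart_p11L : IsInvPart S (p11L S.isJ) := fun _ => rfl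

theorem exists_bump_form (r : ℝ) (x : M) :
    ∃ w : Form M, ∀ y u v, w.1 y u v = S.bump r x y * S.F.1 y u v :=
  ⟨bumpForm S r x, fun _ _ _ => rfl⟩

theorem exists_nrm_part : ∃ C, 0 ≤ C ∧ ∀ (w : Form M) x,
    S.nrm (p11L S.isJ w).1 x ≤ C * S.cN 0 w.1 ∧
      S.nrm (w - p11L S.isJ w).1 x ≤ C * S.cN 0 w.1 := by
  obtain ⟨C, hC, hp⟩ := S.exists_cN_p11 0
  obtain ⟨C', hC', hm⟩ := S.exists_cN_pm 0
  refine ⟨C + C', add_nonneg hC hC', fun w x => ⟨?_, ?_⟩⟩
  · refine ((S.nrm_le_cN 0 (p11L S.isJ w).2 x).trans (hp w.1 w.2)).trans ?_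
    exact mul_le_mul_of_nonneg_right (le_add_of_nonneg_right hC') (S.cN_nonneg 0 _)
  · have e : (w - p11L S.isJ w).1 = pm S.J w.1 := by
      funext y u v
      simp only [Submodule.coe_sub, Pi.sub_apply, p11L_coe, p11, pm]
      ring
    rw [e]
    refine ((S.nrm_le_cN 0 (isTwoForm_pm S.isJ w.2) x).trans (hm w.1 w.2)).trans ?_
    exact mul_le_mul_of_nonneg_right (le_add_of_nonneg_left hC) (S.cN_nonneg 0 _)

variable [CompactSpace M]

theorem continuous_emb : Continuous S.at_.emb :=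
  (EuclideanSpace.equiv (Fin S.at_.dim) ℝ).symm.continuous.comp
    (continuous_pi fun k => (S.at_.emb_smooth k).continuous)

theorem continuous_bump (r : ℝ) : Continuous fun p : M × M => S.bump r p.1 p.2 :=
  Real.smoothTransition.continuous.comp (continuous_const.sub
    ((((S.continuous_emb.comp continuous_fst).sub
      (S.continuous_emb.comp continuous_snd)).norm.pow 2).div_const _))

/-- cutting `F` by a function costs its supremum -/
theorem exists_cN_mul_F : ∃ C, 0 ≤ C ∧ ∀ (w : Form M) (g : M → ℝ) (B : ℝ), (∀ y, |g y| ≤ B) →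
    (∀ y u v, w.1 y u v = g y * S.F.1 y u v) → S.cN 0 w.1 ≤ C * B := by
  refine ⟨(S.at_.n : ℝ) * ((0 : ℕ) + 1 : ℕ) * S.cN 0 S.F.1, by
    have := S.cN_nonneg 0 S.F.1; positivity, fun w g B hg hw => ?_⟩
  rcases isEmpty_or_nonempty M with h | ⟨⟨x0⟩⟩
  · have : S.at_.n = 0 := by
      by_contra hn
      exact isEmptyElim ((S.at_.chart ⟨0, Nat.pos_of_ne_zero hn⟩).symm 0)
    have : IsEmpty (Fin S.at_.n) := by rw [this]; infer_instance
    simp [Setup.cN, ‹S.at_.n = 0›]
  · have hB : 0 ≤ B := (abs_nonneg _).trans (hg x0)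
    have hk : ∀ i : Fin S.at_.n, ∀ y ∈ closedBall (0 : E4) 3,
        ‖S.read i w.1 y‖ ≤ B * S.cN 0 S.F.1 := by
      intro i y hy
      have e : S.read i w.1 y = g ((S.at_.chart i).symm y) • S.read i S.F.1 y := by
        funext a b
        exact hw _ _ _
      rw [e, norm_smul, Real.norm_eq_abs]
      exact mul_le_mul (hg _) (S.read_le_cN i S.F.2 hy) (norm_nonneg _) hB
    refine (S.cN_le_of_bound (N := 0) (B := B * S.cN 0 S.F.1)
      (mul_nonneg hB (S.cN_nonneg 0 _)) fun i j hj y hy => ?_).trans_eq (by ring)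
    rw [Nat.le_zero.1 hj, iteratedFDeriv_zero_le_norm]
    exact hk i y hy

theorem continuous_dens {L : Form M →ₗ[ℝ] ℝ} (hL : ∃ B, ∀ w : Form M, |L w| ≤ B * S.cN 0 w.1)
    (r : ℝ) : Continuous (dens S L r) := by
  obtain ⟨B, hB⟩ := hL
  obtain ⟨C, hC, hCw⟩ := S.exists_cN_mul_F
  set Φ : C(M, C(M, ℝ)) := (ContinuousMap.mk _ (S.continuous_bump r)).curry
  refine continuous_iff_continuousAt.2 fun x0 => ?_
  have h : Continuous fun x => L (bumpForm S r x) := by
    refine continuous_iff_continuousAt.2 fun x1 => ?_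
    refine tendsto_iff_norm_sub_tendsto_zero.2 (squeeze_zero (fun _ => norm_nonneg _) (fun x => ?_)
      (show Tendsto (fun x => |B| * (C * ‖Φ x - Φ x1‖)) (𝓝 x1) (𝓝 0) by
        have h0 := tendsto_iff_norm_sub_tendsto_zero.1 (Φ.continuous.tendsto x1)
        simpa using (h0.const_mul C).const_mul |B|))
    rw [Real.norm_eq_abs, ← map_sub]
    refine (hB _).trans ((mul_le_mul_of_nonneg_right (le_abs_self B) (S.cN_nonneg 0 _)).trans
      (mul_le_mul_of_nonneg_left ?_ (abs_nonneg _)))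
    refine hCw _ (fun y => S.bump r x y - S.bump r x1 y) _ (fun y => ?_) fun y u v => ?_
    · exact (Φ x - Φ x1).norm_coe_le_norm y
    · simp only [Submodule.coe_sub, Pi.sub_apply, bumpForm_apply]; ring
  have e : dens S L r = fun x => L (bumpForm S r x) / r ^ 4 := by
    funext x
    rw [dens, ballVal_eq]
  rw [e]
  exact (h.div_const _).continuousAt

end Setup

end Vale.Agent.P204.Full
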