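import Vale.Agent.P204.Full.End.Tools
import Vale.Agent.P204.Full.Dual.Split

/-!
P204, step 6: the anti-invariant functional vanishes.
With `φR, TR, SR` the representatives of `φ, T, sing` after smoothing, `TR + φR` and `SR` are closed,
so `0 = pair (φR + TR - SR) (φR + TR)`; every term other than the square of the anti-invariant part
of `φR` tends to zero.
-/

namespace Vale.Agent.P204.Full

open MeasureTheory Set Filter Topology
open scoped Manifold ContDiff

universe u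

variable {M : Type u} [TopologicalSpace M] [ChartedSpace E4 M] [MeasurableSpace M]

namespace EndTools

variable {S : Setup M} (T : EndTools S)
include T

theorem Q_pm_right (a b : Form M) : T.Q (a - T.P a) b = T.Q (a - T.P a) (b - T.P b) := by
  have h : T.Q (a - T.P a) (T.P b) = 0 := (T.Q_comm _ _).trans (T.Q_ortho b a)
  rw [map_sub (T.Q (a - T.P a)) b, h, sub_zero]

theorem Q_P_right (a b : Form M) (hb : T.P b = b) : T.Q (T.P a) b = T.Q a b := by
  have h : T.Q (a - T.P a) b = 0 := by rw [← hb]; exact (T.Q_comm _ _).trans (T.Q_ortho b a)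
  rw [map_sub, LinearMap.sub_apply, sub_eq_zero] at h
  exact h.symm

theorem Q_split (a : Form M) :
    T.Q a a = T.Q (a - T.P a) (a - T.P a) + T.Q (T.P a) (T.P a) := by
  rw [T.Q_P_right a _ (T.P_idem a), ← T.Q_pm_right, map_sub, LinearMap.sub_apply,
    T.Q_P_right a a |> fun _ => T.Q_comm a (T.P a)]
  ring

/-- the anti-invariant projection is bounded -/
theorem l2_pm_le (v : Form M) : S.l2 (v - T.P v).1 ≤ T.C / T.c * S.l2 v.1 := by
  rcases (T.l2_nonneg (v - T.P v)).eq_or_lt with h | h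
  · rw [← h]
    exact mul_nonneg (div_nonneg (by linarith [T.C_pos]) T.c_pos.le) (T.l2_nonneg v)
  · rw [div_mul_eq_mul_div, le_div_iff₀ T.c_pos]
    have h1 := T.anti_pos v
    rw [← T.Q_pm_right v v] at h1
    have h2 := (le_abs_self _).trans (T.abs_Q (v - T.P v) v)
    refine le_of_mul_le_mul_right ?_ h
    linarith

/-- representatives of square-integrably bounded anti-invariant functionals -/
theorem exists_rep_l2 {op : ℝ → Form M →ₗ[ℝ] Form M} (hop : Mollif S op) :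
    ∃ D, 0 ≤ D ∧ ∀ ψ : Form M →ₗ[ℝ] ℝ, (∀ w, ψ (T.P w) = 0) → ∀ A, 0 ≤ A →
      (∀ w, |ψ w| ≤ A * S.l2 w.1) → ∀ e, 0 < e → e ≤ 1 → ∀ W : Form M,
        (∀ η, T.Q W η = ψ (op e η)) →
          S.l2 (W - T.P W).1 ≤ D * A ∧ S.l2 (T.P W).1 ≤ D * A * e := by
  obtain ⟨Cb, hb⟩ := hop.bound 0
  obtain ⟨Cc, hc⟩ := hop.comm_inv 0
  have hC0 : 0 ≤ T.C := zero_le_one.trans T.C_pos
  refine ⟨T.C * T.C * |Cb| / T.c + T.C * T.C * T.C * |Cc|,
    by have := T.c_pos; positivity, fun ψ hψ A hA hbd e he he1 W hW => ⟨?_, ?_⟩⟩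
  · set a := W - T.P W with ha
    have h1 : T.c * S.l2 a.1 ^ 2 ≤ A * (T.C * |Cb| * T.C) * S.l2 a.1 := by
      refine (T.anti_pos W).trans ?_
      rw [← ha]
      have e1 : T.Q a a = T.Q W a := by
        have h0 : T.Q (T.P W) a = 0 := T.Q_ortho W W
        have h1 : T.Q a = T.Q W - T.Q (T.P W) := map_sub _ _ _
        rw [h1, LinearMap.sub_apply, h0, sub_zero]
      rw [e1, hW]
      refine ((le_abs_self _).trans (hbd _)).trans ?_
      rw [mul_assoc A]
      refine mul_le_mul_of_nonneg_left ((T.l2_le_sN e _).trans ?_) hA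
      rw [mul_assoc, mul_assoc]
      refine mul_le_mul_of_nonneg_left ((hb e he he1 a).trans ?_) hC0
      exact (mul_le_mul_of_nonneg_right (le_abs_self Cb) (Finset.sum_nonneg fun _ _ =>
        Finset.sum_nonneg fun _ _ => mul_nonneg (pow_nonneg he.le _) (Real.sqrt_nonneg _))).trans
          (mul_le_mul_of_nonneg_left (T.sN_le_l2 e a) (abs_nonneg _))
    rcases (T.l2_nonneg a).eq_or_lt with h | h
    · rw [← h]; have := T.c_pos; positivity
    · have h2 : S.l2 a.1 ≤ A * (T.C * |Cb| * T.C) / T.c := by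
        rw [le_div_iff₀ T.c_pos]
        refine le_of_mul_le_mul_right ?_ h
        linarith
      refine h2.trans ?_
      have e2 : A * (T.C * |Cb| * T.C) / T.c = T.C * T.C * |Cb| / T.c * A := by ring
      rw [e2]
      exact mul_le_mul_of_nonneg_right (le_add_of_nonneg_right (by positivity)) hA
  · obtain ⟨η, hη, hη1, hη2⟩ := T.inv_dual W
    rw [T.Q_P_right W η hη, hW] at hη2
    have hinv : p11 S.J η.1 = η.1 := by rw [← T.hP, hη]
    have h3 : ψ (op e η) ≤ A * (T.C * (|Cc| * e * (T.C * S.l2 (T.P W).1))) := by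
      have e3 : ψ (op e η) = ψ (op e η - T.P (op e η)) := by rw [map_sub, hψ, sub_zero]
      rw [e3]
      refine ((le_abs_self _).trans (hbd _)).trans (mul_le_mul_of_nonneg_left ?_ hA)
      refine (T.l2_le_sN e _).trans (mul_le_mul_of_nonneg_left ?_ hC0)
      rw [T.pm_eq]
      refine (hc e he he1 η hinv).trans (mul_le_mul ?_ hη1 (T.l2_nonneg η) (by positivity))
      exact mul_le_mul_of_nonneg_right (le_abs_self Cc) he.le
    rcases (T.l2_nonneg (T.P W)).eq_or_lt with h | h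
    · rw [← h]; have := T.c_pos; positivity
    · have h4 : S.l2 (T.P W).1 ≤ T.C * T.C * T.C * |Cc| * A * e := by
        refine le_of_mul_le_mul_right ?_ h
        nlinarith [mul_le_mul_of_nonneg_left h3 hC0]
      refine h4.trans (mul_le_mul_of_nonneg_right (mul_le_mul_of_nonneg_right ?_ hA) he.le)
      exact le_add_of_nonneg_left (by have := T.c_pos; positivity)

end EndTools

section cur

variable {S : Setup M} {O : Obstruction S} (cut : Cut O)

theorem isPosCur_T (O : Obstruction S) : IsPosCur S O.T := ⟨O.T_inv, O.T_nonneg⟩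

theorem part_antitone {k l : ℕ} (h : k ≤ l) {w : Form M} (hw : p11 S.J w.1 = w.1)
    (hn : NonnegJ S.J w.1) : cut.part l w ≤ cut.part k w := by
  induction h with
  | refl => exact le_rfl
  | step _ ih => exact (cut.part_anti _ w hw hn).trans ih

theorem sing_inv {w η : Form M} (h : η.1 = p11 S.J w.1) : cut.sing η = cut.sing w :=
  tendsto_nhds_unique (cut.part_lim η) ((cut.part_lim w).congr fun k => (cut.part_inv k w η h).symm)

theorem isPosCur_sing : IsPosCur S cut.sing :=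
  ⟨fun _ _ h => sing_inv cut h, fun w hw hn =>
    ge_of_tendsto' (cut.part_lim w) fun k => cut.part_nonneg k w hw hn⟩

theorem isPosCur_diff : IsPosCur S (O.T - cut.sing) := by
  refine ⟨fun w η h => ?_, fun w hw hn => ?_⟩
  · simp only [LinearMap.sub_apply, O.T_inv w η h, sing_inv cut h]
  · rw [LinearMap.sub_apply, sub_nonneg]
    exact le_of_tendsto' (cut.part_lim w) fun k => cut.part_le k w hw hn

theorem isPosCur_T_sub_part (k : ℕ) : IsPosCur S (O.T - cut.part k) := by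
  refine ⟨fun w η h => ?_, fun w hw hn => ?_⟩
  · simp only [LinearMap.sub_apply, O.T_inv w η h, cut.part_inv k w η h]
  · rw [LinearMap.sub_apply, sub_nonneg]
    exact cut.part_le k w hw hn

theorem isPosCur_part_sub_sing (k : ℕ) : IsPosCur S (cut.part k - cut.sing) := by
  refine ⟨fun w η h => ?_, fun w hw hn => ?_⟩
  · simp only [LinearMap.sub_apply, cut.part_inv k w η h, sing_inv cut h]
  · rw [LinearMap.sub_apply, sub_nonneg]
    exact le_of_tendsto (cut.part_lim w) ((eventually_ge_atTop k).mono fun l hl =>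
      part_antitone cut hl hw hn)

variable [CompactSpace M] [BorelSpace M] (T : EndTools S)

/-- scale times the square-integral norm of the density -/
noncomputable def dnorm (S : Setup M) (L : Form M → ℝ) (K e : ℝ) : ℝ :=
  e * Real.sqrt (∫ x, dens S L (K * e) x ^ 2 ∂S.vol)

include T

theorem sq_dens_le (hden : Density O) {K : ℝ} (hK : 0 < K) :
    ∃ B, 0 ≤ B ∧ ∀ L, IsPosCur S L → IsPosCur S (O.T - L) → ∀ e, 0 < e → e ≤ 1 →
      e ^ 2 * ∫ x, dens S L (K * e) x ^ 2 ∂S.vol ≤ B * L S.F := by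
  obtain ⟨Cd, hd⟩ := hden K hK
  obtain ⟨B, hB, hm⟩ := T.dens_mass K hK
  refine ⟨|Cd| / K ^ 4 * B, by positivity, fun L hL hL' e he he1 => ?_⟩
  have := T.finite
  have hc := T.dens_cont L (T.posCur_bound hL) (K * e) (by positivity)
  have hi : ∀ {h : M → ℝ}, Continuous h → Integrable h S.vol :=
    fun h => h.integrable_of_hasCompactSupport (HasCompactSupport.of_compactSpace _)
  have hb : ∀ x, e ^ 2 * dens S L (K * e) x ^ 2 ≤ |Cd| / K ^ 4 * dens S L (K * e) x := by
    intro x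
    have h0 := T.dens_nonneg hL (show 0 < K * e by positivity) x
    have h1 := T.dens_mono (show 0 < K * e by positivity) x hL'
    have h2 : dens S O.T (K * e) x ≤ |Cd| * e ^ 2 / (K * e) ^ 4 :=
      div_le_div_of_nonneg_right ((hd e he he1 x).trans
        (mul_le_mul_of_nonneg_right (le_abs_self _) (by positivity))) (by positivity)
    have h3 : e ^ 2 * (|Cd| * e ^ 2 / (K * e) ^ 4) = |Cd| / K ^ 4 := by field_simp
    have h4 := mul_le_mul_of_nonneg_left (h1.trans h2) (sq_nonneg e)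
    rw [h3] at h4
    nlinarith [mul_le_mul_of_nonneg_right h4 h0]
  rw [← integral_const_mul]
  refine (integral_mono (hi (by fun_prop)) (hi (by fun_prop)) hb).trans ?_
  rw [integral_const_mul, mul_assoc]
  exact mul_le_mul_of_nonneg_left (hm L hL (T.posCur_bound hL) e he he1) (by positivity)

theorem dnorm_bdd (hden : Density O) {K : ℝ} (hK : 0 < K) :
    ∃ B, ∀ e, 0 < e → e ≤ 1 → dnorm S O.T K e ≤ B := by
  obtain ⟨B, -, h⟩ := sq_dens_le T hden hK
  refine ⟨Real.sqrt B, fun e he he1 => ?_⟩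
  have h1 := h O.T (isPosCur_T O) (by rw [sub_self]; exact ⟨fun _ _ _ => rfl, fun _ _ _ => le_rfl⟩)
    e he he1
  rw [O.T_unit, mul_one] at h1
  calc dnorm S O.T K e = Real.sqrt (e ^ 2 * ∫ x, dens S O.T (K * e) x ^ 2 ∂S.vol) := by
        rw [dnorm, Real.sqrt_mul (sq_nonneg e), Real.sqrt_sq he.le]
    _ ≤ Real.sqrt B := Real.sqrt_le_sqrt h1

theorem dnorm_diff_tendsto (hden : Density O) {K : ℝ} (hK : 0 < K) :
    Tendsto (dnorm S ⇑(O.T - cut.sing) K) (𝓝[>] 0) (𝓝 0) := by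
  set q : ℝ → ℝ := fun e => e ^ 2 * ∫ x, dens S ⇑(O.T - cut.sing) (K * e) x ^ 2 ∂S.vol
  have hq0 : ∀ e, 0 ≤ q e := fun e =>
    mul_nonneg (sq_nonneg e) (integral_nonneg fun x => sq_nonneg _)
  have key : ∀ ε > 0, ∀ᶠ e in 𝓝[>] (0 : ℝ), q e ≤ ε := by
    intro ε hε
    obtain ⟨B, hB, hBd⟩ := sq_dens_le T hden hK
    have hlim : Tendsto (fun k => 2 * B * (cut.part k S.F - cut.sing S.F)) atTop (𝓝 0) := by
      simpa using (((cut.part_lim S.F).sub_const (cut.sing S.F))).const_mul (2 * B)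
    obtain ⟨k, hk⟩ := (hlim.eventually (eventually_le_nhds (half_pos hε))).exists
    have h1 : Tendsto (fun e => 2 * e ^ 2 * ∫ x, dens S ⇑(O.T - cut.part k) (K * e) x ^ 2 ∂S.vol)
        (𝓝[>] 0) (𝓝 0) := by
      have h := (cut.diffuse k K hK).const_mul (2 / K ^ 8)
      rw [mul_zero] at h
      refine h.congr' (eventually_nhdsWithin_of_forall fun e (he : 0 < e) => ?_)
      dsimp only
      rw [← mul_assoc, ← integral_const_mul, ← integral_const_mul]
      refine integral_congr_ae (Eventually.of_forall fun x => ?_)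
      simp only [dens]
      field_simp
      rfl
    filter_upwards [h1.eventually (eventually_le_nhds (half_pos hε)),
      Ioc_mem_nhdsGT (zero_lt_one' ℝ)] with e he1 he
    have := T.finite
    have hr : 0 < K * e := mul_pos hK he.1
    have c1 := T.dens_cont _ (T.posCur_bound (isPosCur_T_sub_part cut k)) (K * e) hr
    have c2 := T.dens_cont _ (T.posCur_bound (isPosCur_part_sub_sing cut k)) (K * e) hr
    have c0 := T.dens_cont _ (T.posCur_bound (isPosCur_diff cut)) (K * e) hr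
    have hi : ∀ {h : M → ℝ}, Continuous h → Integrable h S.vol :=
      fun h => h.integrable_of_hasCompactSupport (HasCompactSupport.of_compactSpace _)
    have hle : q e ≤ 2 * e ^ 2 * ∫ x, dens S ⇑(O.T - cut.part k) (K * e) x ^ 2 ∂S.vol +
        2 * (e ^ 2 * ∫ x, dens S ⇑(cut.part k - cut.sing) (K * e) x ^ 2 ∂S.vol) := by
      simp only [q, ← integral_const_mul]
      rw [← integral_add (hi (by fun_prop)) (hi (by fun_prop))]
      refine integral_mono (hi (by fun_prop)) (hi (by fun_prop)) fun x => ?_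
      have hs : dens S ⇑(O.T - cut.sing) (K * e) x = dens S ⇑(O.T - cut.part k) (K * e) x +
          dens S ⇑(cut.part k - cut.sing) (K * e) x := T.dens_split (fun w => by simp) hr x
      rw [hs]
      nlinarith [mul_nonneg (sq_nonneg e) (sq_nonneg (dens S ⇑(O.T - cut.part k) (K * e) x -
        dens S ⇑(cut.part k - cut.sing) (K * e) x))]
    have h3 := hBd _ (isPosCur_part_sub_sing cut k)
      (by refine ⟨fun w η h => ?_, fun w hw hn => ?_⟩
          · simp only [LinearMap.sub_apply, O.T_inv w η h, cut.part_inv k w η h, sing_inv cut h]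
          · have h4 := cut.part_le k w hw hn
            have h5 := (isPosCur_sing cut).nonneg w hw hn
            simp only [LinearMap.sub_apply]; linarith) e he.1 he.2
    rw [LinearMap.sub_apply] at h3
    linarith
  have hq : Tendsto q (𝓝[>] 0) (𝓝 0) := by
    refine Metric.tendsto_nhds.2 fun ε hε => (key (ε / 2) (half_pos hε)).mono fun e he => ?_
    rw [Real.dist_eq, sub_zero, abs_of_nonneg (hq0 e)]
    linarith
  have h := (Real.continuous_sqrt.tendsto 0).comp hq
  rw [Real.sqrt_zero] at h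
  refine h.congr' (eventually_nhdsWithin_of_forall fun e (he : 0 < e) => ?_)
  simp only [Function.comp_apply, q, dnorm]
  rw [Real.sqrt_mul (sq_nonneg e), Real.sqrt_sq he.le]

end cur

section core

variable {S : Setup M} [CompactSpace M] [BorelSpace M]

omit [CompactSpace M] [BorelSpace M] in
theorem EndTools.abs_split (T : EndTools S) (L : Form M →ₗ[ℝ] ℝ) (w : Form M) :
    |L w| ≤ |L (T.P w)| + |L (w - T.P w)| := by
  have e : L w = L (T.P w) + L (w - T.P w) := by rw [map_sub]; ring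
  rw [e]; exact abs_add_le _ _

variable {O : Obstruction S} (T : EndTools S)
include T

omit [CompactSpace M] [BorelSpace M] in
theorem φ_P (w : Form M) : O.φ (T.P w) = 0 := by
  have h := O.φ_anti (T.P w) 0 (by rw [T.hP, pm_of_inv_zero (p11_idem S w)]; rfl)
  rw [← h, map_zero]

omit [CompactSpace M] [BorelSpace M] in
/-- the anti-invariant functional is, up to `ε`, the pairing with a smooth form -/
theorem exists_smooth_split {Cφ : ℝ} (hCφ : ∀ w, |O.φ w| ≤ Cφ * S.l2 w.1) {ε : ℝ} (hε : 0 < ε) :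
    ∃ φ₀ : Form M, T.P φ₀ = 0 ∧ (∀ w, T.Q φ₀ (T.P w) = 0) ∧
      ∀ w, |O.φ w - T.Q φ₀ w| ≤ ε * S.l2 w.1 := by
  have hC0 : 0 ≤ T.C := zero_le_one.trans T.C_pos
  set ε' := ε / (Real.sqrt T.C * (T.C / T.c) + 1)
  have hε' : 0 < ε' := by have := T.c_pos; positivity
  have he : ε' * (Real.sqrt T.C * (T.C / T.c)) ≤ ε := by
    have h : ε' * (Real.sqrt T.C * (T.C / T.c) + 1) = ε :=
      div_mul_cancel₀ _ (by have := T.c_pos; positivity)
    linarith
  obtain ⟨v₀, hv₀⟩ := Dual.exists_split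
    (T.Q.compl₁₂ (LinearMap.id - T.P) (LinearMap.id - T.P))
    (fun u v => T.Q_comm _ _)
    (fun v => le_trans (mul_nonneg T.c_pos.le (sq_nonneg _)) (T.anti_pos v))
    O.φ (C := Cφ ^ 2 / T.c) (fun v => by
      have h1 : O.φ v = O.φ (v - T.P v) := by rw [map_sub, φ_P T, sub_zero]
      simp only [LinearMap.compl₁₂_apply, LinearMap.sub_apply, LinearMap.id_coe, id]
      rw [h1, ← sq_abs, div_mul_eq_mul_div, le_div_iff₀ T.c_pos]
      have h4 := pow_le_pow_left₀ (abs_nonneg _) (hCφ (v - T.P v)) 2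
      rw [mul_pow] at h4
      nlinarith [mul_le_mul_of_nonneg_left (T.anti_pos v) (sq_nonneg Cφ),
        mul_le_mul_of_nonneg_right h4 T.c_pos.le])
    hε'
  refine ⟨v₀ - T.P v₀, by rw [map_sub, T.P_idem, sub_self], fun w =>
    (T.Q_comm _ _).trans (T.Q_ortho w v₀), fun w => ?_⟩
  have h := hv₀ w
  simp only [LinearMap.compl₁₂_apply, LinearMap.sub_apply, LinearMap.id_coe, id] at h
  rw [← T.Q_pm_right v₀ w] at h
  refine h.trans ?_
  have h2 : Real.sqrt (T.Q (w - T.P w) (w - T.P w)) ≤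
      Real.sqrt T.C * (T.C / T.c * S.l2 w.1) := by
    refine le_trans ?_ (mul_le_mul_of_nonneg_left (T.l2_pm_le w) (Real.sqrt_nonneg _))
    rw [Real.sqrt_le_iff]
    refine ⟨mul_nonneg (Real.sqrt_nonneg _) (T.l2_nonneg _), ?_⟩
    rw [mul_pow, Real.sq_sqrt hC0, sq, ← mul_assoc]
    exact (le_abs_self _).trans (T.abs_Q _ _)
  refine (mul_le_mul_of_nonneg_left h2 hε'.le).trans ?_
  rw [← mul_assoc (Real.sqrt _), ← mul_assoc ε']
  exact mul_le_mul_of_nonneg_right he (T.l2_nonneg w)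

/-- the kernel bounds with the density norms -/
theorem exists_cur_bounds {op : ℝ → Form M →ₗ[ℝ] Form M} (hop : Mollif S op) :
    ∃ C K K₁ K₂ : ℝ, 0 < C ∧ 0 < K ∧ 0 < K₁ ∧ 0 < K₂ ∧
      ∀ L : Form M →ₗ[ℝ] ℝ, IsPosCur S L → ∀ e : ℝ, 0 < e → e ≤ 1 → ∀ w : Form M,
        (|L (op e w)| ≤ C * ∫ x, S.nrm w.1 x * dens S L (K * e) x ∂S.vol) ∧
        (|L (op e (w - T.P w))| ≤
          C * e * ∫ x, S.nrm (w - T.P w).1 x * dens S L (K₁ * e) x ∂S.vol) ∧
        (p11 S.J w.1 = w.1 → NonnegJ S.J w.1 →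
          -(C * e ^ 2 * ∫ x, S.nrm w.1 x * dens S L (K₂ * e) x ∂S.vol) ≤ L (op e w)) ∧
        (|L (op e w)| ≤ C * S.l2 w.1 * Real.sqrt (∫ x, dens S L (K * e) x ^ 2 ∂S.vol)) ∧
        (|L (op e (w - T.P w))| ≤ C * S.l2 (w - T.P w).1 * dnorm S L K₁ e) := by
  obtain ⟨C, K, K₁, K₂, hC, hK, hK₁, hK₂, h⟩ := exists_kernel_bounds hop
  refine ⟨C, K, K₁, K₂, hC, hK, hK₁, hK₂, fun L hL e he he1 w => ?_⟩
  have hb := fun {r : ℝ} (hr : 0 < r) => T.maj_bound L hL (T.posCur_bound hL) r hr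
  obtain ⟨h0, -, h2⟩ := h L hL T.P T.hP e he he1 (dens S L (K * e)) w
  have g0 := h0 (hb (mul_pos hK he))
  have g1 := (h L hL T.P T.hP e he he1 (dens S L (K₁ * e)) (w - T.P w)).2.1 (hb (mul_pos hK₁ he))
    (T.pm_self w)
  have g2 := (h L hL T.P T.hP e he he1 (dens S L (K₂ * e)) w).2.2 (hb (mul_pos hK₂ he))
  refine ⟨g0, g1, g2, g0.trans ?_, g1.trans ?_⟩
  · rw [mul_assoc]
    exact mul_le_mul_of_nonneg_left (T.pairing_le hL (mul_pos hK he) w) hC.le
  · refine (mul_le_mul_of_nonneg_left (T.pairing_le hL (mul_pos hK₁ he) _)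
      (by positivity)).trans_eq ?_
    simp only [dnorm]; ring

theorem integral_mass_le {K B : ℝ} (hK : 0 < K)
    (hB : ∀ L, IsPosCur S L → (∃ B', ∀ w : Form M, |L w| ≤ B' * S.cN 0 w.1) → ∀ e, 0 < e → e ≤ 1 →
      ∫ x, dens S L (K * e) x ∂S.vol ≤ B * L S.F)
    {e : ℝ} (he : 0 < e) (he1 : e ≤ 1) (w : Form M) {b : ℝ} (hb : ∀ x, S.nrm w.1 x ≤ b)
    (hb0 : 0 ≤ b) : ∫ x, S.nrm w.1 x * dens S O.T (K * e) x ∂S.vol ≤ b * B := by
  have := T.finite
  have hi : ∀ {h : M → ℝ}, Continuous h → Integrable h S.vol :=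
    fun h => h.integrable_of_hasCompactSupport (HasCompactSupport.of_compactSpace _)
  have hTp := isPosCur_T O
  have hc := T.dens_cont _ (T.posCur_bound hTp) (K * e) (mul_pos hK he)
  have hle : ∫ x, S.nrm w.1 x * dens S O.T (K * e) x ∂S.vol ≤
      ∫ x, b * dens S O.T (K * e) x ∂S.vol :=
    integral_mono (hi (by have := T.nrm_cont w; fun_prop)) (hi (by fun_prop)) fun x =>
      mul_le_mul_of_nonneg_right (hb x) (T.dens_nonneg hTp (mul_pos hK he) x)
  rw [integral_const_mul] at hle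
  have := hB O.T hTp (T.posCur_bound hTp) e he he1
  rw [O.T_unit, mul_one] at this
  exact hle.trans (mul_le_mul_of_nonneg_left this hb0)

variable {R Rt : ℝ → Form M →ₗ[ℝ] Form M}

/-- the positive functional against the representative of the anti-invariant one -/
theorem T_on_rep (hpair : SmoothPair S R Rt) (hden : Density O) (hphi : PhiL2 O) {ε : ℝ}
    (hε : 0 < ε) : ∃ A, ∀ e, 0 < e → e ≤ 1 → ∀ W : Form M, (∀ η, T.Q W η = O.φ (Rt e η)) →
      |O.T (Rt e W)| ≤ A * e + ε := by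
  obtain ⟨Cφ, hCφ⟩ := hphi
  obtain ⟨D, hD, hrepl⟩ := T.exists_rep_l2 hpair.right
  obtain ⟨C, K, K₁, _, hC, hK, hK₁, -, hker⟩ := exists_cur_bounds T hpair.right
  obtain ⟨Cs, hCs⟩ := hpair.left.conv_sup
  obtain ⟨BK, hBK⟩ := dnorm_bdd T hden hK
  obtain ⟨BK₁, hBK₁⟩ := dnorm_bdd T hden hK₁
  obtain ⟨Bm, hBm0, hBm⟩ := T.dens_mass K hK
  obtain ⟨Bm₁, hBm₁0, hBm₁⟩ := T.dens_mass K₁ hK₁
  have hC0 : 0 ≤ T.C := zero_le_one.trans T.C_pos
  set Z := C * D * (|BK| + |BK₁|)
  obtain ⟨φ₀, hφ₀, hφ₀P, hψ⟩ := exists_smooth_split T hCφ (show 0 < ε / (Z + 1) by positivity)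
  set c₀ := S.cN 0 φ₀.1
  set c₁ := S.cN 1 φ₀.1
  have hc₀ : 0 ≤ c₀ := T.cN_nonneg 0 φ₀
  have hc₁ : 0 ≤ c₁ := T.cN_nonneg 1 φ₀
  refine ⟨C * T.C * (|Cs| * c₁) * Bm + C * T.C * (|Cs| * c₁ + c₀) * Bm₁, fun e he he1 W hW => ?_⟩
  set w₀ := R e φ₀
  set r := W - w₀
  have hr : ∀ η, T.Q r η = (O.φ - T.Q φ₀) (Rt e η) := fun η => by
    simp only [r, map_sub, LinearMap.sub_apply, hW, T.hQ, w₀, hpair.adj]
  obtain ⟨hra, hrX⟩ := hrepl (O.φ - T.Q φ₀)
    (fun w => by rw [LinearMap.sub_apply, φ_P T, hφ₀P, sub_zero]) (ε / (Z + 1)) (by positivity)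
    hψ e he he1 r hr
  have hTp := isPosCur_T O
  have hsup : S.cN 0 (w₀ - φ₀).1 ≤ |Cs| * c₁ * e := by
    refine (hCs e he he1 φ₀).trans ?_
    have := mul_le_mul_of_nonneg_right (le_abs_self Cs) (mul_nonneg he.le hc₁)
    linarith
  have hw0 : S.cN 0 w₀.1 ≤ |Cs| * c₁ + c₀ := by
    have h := T.cN_add (w₀ - φ₀) φ₀
    rw [sub_add_cancel] at h
    have : |Cs| * c₁ * e ≤ |Cs| * c₁ := mul_le_of_le_one_right (by positivity) he1
    linarith
  have u1 : |O.T (Rt e (T.P w₀))| ≤ C * T.C * (|Cs| * c₁) * Bm * e := by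
    refine ((hker _ hTp e he he1 _).1).trans ?_
    refine (mul_le_mul_of_nonneg_left (integral_mass_le T hK hBm he he1 _
      (b := T.C * (|Cs| * c₁ * e)) (fun x => ?_) (by positivity)) hC.le).trans_eq (by ring)
    have hPw0 : T.P w₀ = T.P (w₀ - φ₀) := by rw [map_sub, hφ₀, sub_zero]
    rw [hPw0]
    exact (T.nrm_part _ x).1.trans (mul_le_mul_of_nonneg_left hsup hC0)
  have u2 : |O.T (Rt e (w₀ - T.P w₀))| ≤ C * T.C * (|Cs| * c₁ + c₀) * Bm₁ * e := by
    refine ((hker _ hTp e he he1 _).2.1).trans ?_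
    exact (mul_le_mul_of_nonneg_left (integral_mass_le T hK₁ hBm₁ he he1 _
      (b := T.C * (|Cs| * c₁ + c₀))
      (fun x => (T.nrm_part _ x).2.trans (mul_le_mul_of_nonneg_left hw0 hC0)) (by positivity))
      (by positivity)).trans_eq (by ring)
  have u3 : |O.T (Rt e (T.P r))| ≤ C * (D * (ε / (Z + 1))) * |BK| := by
    refine ((hker _ hTp e he he1 _).2.2.2.1).trans ?_
    rw [mul_assoc C, mul_assoc C]
    refine mul_le_mul_of_nonneg_left ((mul_le_mul_of_nonneg_right hrX (Real.sqrt_nonneg _)).trans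
      ?_) hC.le
    rw [mul_assoc (D * _)]
    exact mul_le_mul_of_nonneg_left ((hBK e he he1).trans (le_abs_self _)) (by positivity)
  have u4 : |O.T (Rt e (r - T.P r))| ≤ C * (D * (ε / (Z + 1))) * |BK₁| :=
    ((hker _ hTp e he he1 _).2.2.2.2).trans (mul_le_mul (mul_le_mul_of_nonneg_left hra hC.le)
      ((hBK₁ e he he1).trans (le_abs_self _)) (mul_nonneg he.le (Real.sqrt_nonneg _))
      (by positivity))
  have hsplit : O.T (Rt e W) = O.T (Rt e w₀) + O.T (Rt e r) := by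
    simp only [r, map_sub]; ring
  have s1 := T.abs_split (O.T.comp (Rt e)) w₀
  have s2 := T.abs_split (O.T.comp (Rt e)) r
  simp only [LinearMap.comp_apply] at s1 s2
  rw [hsplit]
  refine (abs_add_le _ _).trans ?_
  have e5 : C * (D * (ε / (Z + 1))) * |BK| + C * (D * (ε / (Z + 1))) * |BK₁| =
      Z * (ε / (Z + 1)) := by
    simp only [Z]; ring
  have e6 : Z * (ε / (Z + 1)) ≤ ε := by
    rw [mul_div_assoc', div_le_iff₀ (by positivity)]
    nlinarith
  linarith

/-- the diffuse functional against the representatives -/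
theorem diff_on_reps (hpair : SmoothPair S R Rt) (hden : Density O) (hphi : PhiL2 O)
    (cut : Cut O) (hrep : RepPos S T O Rt) : ∃ ν : ℝ → ℝ, Tendsto ν (𝓝[>] 0) (𝓝 0) ∧
      ∀ e, 0 < e → e ≤ 1 → ∀ W U : Form M, (∀ η, T.Q W η = O.φ (Rt e η)) →
        (∀ η, T.Q U η = O.T (Rt e η)) →
        -ν e ≤ (O.T - cut.sing) (Rt e W) + (O.T - cut.sing) (Rt e U) := by
  obtain ⟨Cφ, hCφ⟩ := hphi
  obtain ⟨D, hD, hrepl⟩ := T.exists_rep_l2 hpair.right
  obtain ⟨C, K, K₁, K₂, hC, hK, hK₁, hK₂, hker⟩ := exists_cur_bounds T hpair.right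
  obtain ⟨Cr, K₀, hK₀, hrep⟩ := hrep
  obtain ⟨BK₁, hBK₁⟩ := dnorm_bdd T hden hK₁
  obtain ⟨BK₀, hBK₀⟩ := dnorm_bdd T hden hK₀
  have hTp := isPosCur_T O
  have hdp := isPosCur_diff cut
  set d := O.T - cut.sing
  refine ⟨fun e => C * (D * |Cφ|) * dnorm S d K e + C * (D * |Cφ|) * dnorm S d K₁ e +
      C * (C * |BK₁| / T.c) * dnorm S d K₁ e + C * (|Cr| * |BK₀|) * dnorm S d K₂ e +
      |Cr| * (C * (|Cr| * |BK₀|)) * dnorm S d K e, ?_, fun e he he1 W U hW hU => ?_⟩
  · have hd := fun {K' : ℝ} (h : 0 < K') => dnorm_diff_tendsto cut T hden h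
    simpa using ((((hd hK).const_mul (C * (D * |Cφ|))).add
      ((hd hK₁).const_mul (C * (D * |Cφ|)))).add ((hd hK₁).const_mul (C * (C * |BK₁| / T.c)))
      |>.add ((hd hK₂).const_mul (C * (|Cr| * |BK₀|)))).add
        ((hd hK).const_mul (|Cr| * (C * (|Cr| * |BK₀|))))
  have hdn : ∀ (L : Form M → ℝ) K', 0 ≤ dnorm S L K' e := fun L K' =>
    mul_nonneg he.le (Real.sqrt_nonneg _)
  obtain ⟨hWa, hWX⟩ := hrepl O.φ (φ_P T) |Cφ| (abs_nonneg _)
    (fun w => (hCφ w).trans (mul_le_mul_of_nonneg_right (le_abs_self _) (T.l2_nonneg w)))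
    e he he1 W hW
  have v1 : |d (Rt e W)| ≤ C * (D * |Cφ|) * dnorm S d K e + C * (D * |Cφ|) * dnorm S d K₁ e := by
    have s := T.abs_split (d.comp (Rt e)) W
    simp only [LinearMap.comp_apply] at s
    refine s.trans (add_le_add ?_ ?_)
    · refine ((hker _ hdp e he he1 _).2.2.2.1).trans ?_
      simp only [dnorm]
      rw [mul_assoc C, mul_assoc C]
      refine mul_le_mul_of_nonneg_left ?_ hC.le
      rw [← mul_assoc (D * |Cφ|)]
      exact mul_le_mul_of_nonneg_right hWX (Real.sqrt_nonneg _)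
    · exact ((hker _ hdp e he he1 _).2.2.2.2).trans
        (mul_le_mul_of_nonneg_right (mul_le_mul_of_nonneg_left hWa hC.le) (hdn _ _))
  have v2 : |d (Rt e (U - T.P U))| ≤ C * (C * |BK₁| / T.c) * dnorm S d K₁ e := by
    refine ((hker _ hdp e he he1 _).2.2.2.2).trans
      (mul_le_mul_of_nonneg_right (mul_le_mul_of_nonneg_left ?_ hC.le) (hdn _ _))
    rcases (T.l2_nonneg (U - T.P U)).eq_or_lt with h | h
    · rw [← h]; have := T.c_pos; positivity
    · rw [le_div_iff₀ T.c_pos]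
      have h1 := T.anti_pos U
      have e6 : T.Q (U - T.P U) (U - T.P U) = O.T (Rt e (U - T.P U)) := by
        rw [map_sub T.Q U, LinearMap.sub_apply, T.Q_ortho, sub_zero, hU]
      rw [e6] at h1
      have h2 := h1.trans ((le_abs_self _).trans (((hker _ hTp e he he1 _).2.2.2.2).trans
        (mul_le_mul_of_nonneg_left ((hBK₁ e he he1).trans (le_abs_self _)) (by positivity))))
      refine le_of_mul_le_mul_right ?_ h
      linarith
  have v3 : -(C * (|Cr| * |BK₀|) * dnorm S d K₂ e + |Cr| * (C * (|Cr| * |BK₀|)) * dnorm S d K e) ≤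
      d (Rt e (T.P U)) := by
    obtain ⟨G, H, hGH, hH1, hH2, hb⟩ := hrep e he he1 U fun η => (T.hQ U η).symm.trans (hU η)
    have := T.finite
    have hi : ∀ {h : M → ℝ}, Continuous h → Integrable h S.vol :=
      fun h => h.integrable_of_hasCompactSupport (HasCompactSupport.of_compactSpace _)
    have hτc := T.dens_cont _ (T.posCur_bound hTp) (K₀ * e) (mul_pos hK₀ he)
    have hs : dnorm S O.T K₀ e ≤ |BK₀| := (hBK₀ e he he1).trans (le_abs_self _)
    have hint : ∀ (w : Form M) (K' : ℝ), 0 < K' →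
        (∀ x, S.nrm w.1 x ≤ Cr * dens S O.T (K₀ * e) x) →
        e ^ 2 * ∫ x, S.nrm w.1 x * dens S d (K' * e) x ∂S.vol ≤
          |Cr| * |BK₀| * dnorm S d K' e := by
      intro w K' hK' hw
      have hc := T.dens_cont _ (T.posCur_bound hdp) (K' * e) (mul_pos hK' he)
      have hwc := T.nrm_cont w
      have h1 : ∫ x, S.nrm w.1 x * dens S d (K' * e) x ∂S.vol ≤
          ∫ x, |Cr| * (dens S O.T (K₀ * e) x * dens S d (K' * e) x) ∂S.vol :=
        integral_mono (hi (by fun_prop)) (hi (by fun_prop)) fun x =>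
          (mul_le_mul_of_nonneg_right ((hw x).trans (mul_le_mul_of_nonneg_right (le_abs_self _)
            (T.dens_nonneg hTp (mul_pos hK₀ he) x)))
              (T.dens_nonneg hdp (mul_pos hK' he) x)).trans_eq (mul_assoc _ _ _)
      rw [integral_const_mul] at h1
      have h2 := integral_mul_le_sqrt (μ := S.vol) hτc hc
      refine (mul_le_mul_of_nonneg_left (h1.trans (mul_le_mul_of_nonneg_left h2 (abs_nonneg _)))
        (sq_nonneg e)).trans (le_of_eq_of_le ?_ (mul_le_mul_of_nonneg_right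
          (mul_le_mul_of_nonneg_left hs (abs_nonneg _)) (hdn _ _)))
      simp only [dnorm]; ring
    have g1 := (hker _ hdp e he he1 H).2.2.1 hH1 hH2
    have g2 := (hker _ hdp e he he1 G).1
    have g3 := mul_le_mul_of_nonneg_left (hint H K₂ hK₂ fun x => (hb x).2) hC.le
    have g4 := mul_le_mul_of_nonneg_left (hint G K hK fun x => (hb x).1) (mul_nonneg (abs_nonneg Cr) hC.le)
    have g5 : Cr * e ^ 2 * d (Rt e G) ≤ |Cr| * (C * (|Cr| * |BK₀|)) * dnorm S d K e := by
      refine (le_abs_self _).trans ?_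
      rw [abs_mul, abs_mul, abs_of_nonneg (sq_nonneg e)]
      refine (mul_le_mul_of_nonneg_left g2 (by positivity)).trans ?_
      linarith
    rw [hGH, map_sub (Rt e), map_sub d, map_smul (Rt e), map_smul d, smul_eq_mul]
    linarith
  have e7 : d (Rt e U) = d (Rt e (T.P U)) + d (Rt e (U - T.P U)) := by
    rw [map_sub (Rt e), map_sub d]; ring
  linarith [(abs_le.1 v1).1, (abs_le.1 v2).1]

omit [CompactSpace M] [BorelSpace M] in
/-- the square identity -/
theorem square_identity (hpair : SmoothPair S R Rt) (cut : Cut O) {e : ℝ} (he : 0 < e) (he1 : e ≤ 1)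
    {W U : Form M} (hW : ∀ η, T.Q W η = O.φ (Rt e η)) (hU : ∀ η, T.Q U η = O.T (Rt e η)) :
    T.Q W W + O.T (Rt e W) + (O.T - cut.sing) (Rt e W) + (O.T - cut.sing) (Rt e U) = 0 := by
  obtain ⟨B, hB⟩ := T.posCur_bound (isPosCur_sing cut)
  obtain ⟨⟨V, hV0⟩, -⟩ := hpair.represent cut.sing 0 B hB e he he1
  have hV : ∀ η, T.Q V η = cut.sing (Rt e η) := fun η => (T.hQ V η).trans (hV0 η)
  have hQB : ∀ η, T.Q (W + U) η = O.T (Rt e η) + O.φ (Rt e η) := fun η => by
    rw [map_add, LinearMap.add_apply, hW, hU]; ring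
  have hBcl : IsClosedForm (W + U).1 := T.closed_of_pair _ fun η hη => by
    rw [hQB]; exact O.closed_null _ (T.exact_closed _ (hpair.right.exact e η hη))
  have hScl : IsClosedForm V.1 := T.closed_of_pair _ fun η hη => by
    rw [hV]; exact cut.sing_exact _ (hpair.right.exact e η hη)
  have h1 : T.Q (W + U) (W + U) = 0 := by
    rw [hQB]; exact O.closed_null _ (hpair.right.closed e _ hBcl)
  have h2 : T.Q (W + U) V = 0 := by
    rw [hQB]; exact O.closed_null _ (hpair.right.closed e _ hScl)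
  simp only [map_add, LinearMap.add_apply] at h1 h2
  rw [T.Q_comm W V, T.Q_comm U V] at h2
  rw [T.Q_comm W U, hU W] at h1
  rw [hV W, hV U] at h2
  rw [hU U] at h1
  simp only [LinearMap.sub_apply]
  linarith

/-- step 6 -/
theorem end_of_tools (hpair : SmoothPair S R Rt) (hden : Density O) (hphi : PhiL2 O)
    (cut : Cut O) (hrep : RepPos S T O Rt) : ∀ w, O.φ w = 0 := by
  obtain ⟨Cφ, hCφ⟩ := id hphi
  obtain ⟨D, hD, hrepl⟩ := T.exists_rep_l2 hpair.right
  have hC0 : 0 ≤ T.C := zero_le_one.trans T.C_pos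
  have hOφ : ∀ w, |O.φ w| ≤ |Cφ| * S.l2 w.1 := fun w =>
    (hCφ w).trans (mul_le_mul_of_nonneg_right (le_abs_self _) (T.l2_nonneg w))
  obtain ⟨ν, hν, hνb⟩ := diff_on_reps T hpair hden hphi cut hrep
  intro w
  by_contra hne
  have hpos : 0 < |O.φ w| := abs_pos.2 hne
  have hl := T.l2_nonneg w
  have hcp := T.c_pos
  set N := |O.φ w| / (4 * (T.C * S.l2 w.1 + 1))
  have hN : 0 < N := by positivity
  obtain ⟨A, hA⟩ := T_on_rep T hpair hden hphi (show 0 < T.c * N ^ 2 / 2 by positivity)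
  have h0 : Tendsto (fun e : ℝ => e) (𝓝[>] 0) (𝓝 0) := nhdsWithin_le_nhds
  have hlim : Tendsto (fun e => T.C * (D * |Cφ|) ^ 2 * e ^ 2 + A * e + ν e) (𝓝[>] 0) (𝓝 0) := by
    simpa using (((h0.pow 2).const_mul (T.C * (D * |Cφ|) ^ 2)).add (h0.const_mul A)).add hν
  have hX : Tendsto (fun e : ℝ => D * |Cφ| * e) (𝓝[>] 0) (𝓝 0) := by
    simpa using h0.const_mul (D * |Cφ|)
  have hconv := (hpair.right.conv O.order w).const_mul |O.bound|
  rw [mul_zero] at hconv
  obtain ⟨e, ⟨⟨hm, hXe⟩, hce⟩, he, he1⟩ := (((hlim.eventually (eventually_le_nhds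
    (show (0 : ℝ) < T.c * N ^ 2 / 2 by positivity))).and
    (hX.eventually (eventually_le_nhds hN))).and (hconv.eventually
      (eventually_le_nhds (show (0 : ℝ) < |O.φ w| / 4 by positivity)))).and
    (Ioc_mem_nhdsGT (zero_lt_one' ℝ)) |>.exists
  obtain ⟨⟨W, hW0⟩, -⟩ := hpair.represent O.φ O.order O.bound O.φ_bound e he he1
  obtain ⟨⟨U, hU0⟩, -⟩ := hpair.represent O.T 0 O.bound O.T_bound e he he1
  have hW : ∀ η, T.Q W η = O.φ (Rt e η) := fun η => (T.hQ W η).trans (hW0 η)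
  have hU : ∀ η, T.Q U η = O.T (Rt e η) := fun η => (T.hQ U η).trans (hU0 η)
  obtain ⟨hWa, hWX⟩ := hrepl O.φ (φ_P T) |Cφ| (abs_nonneg _) hOφ e he he1 W hW
  have hid := square_identity T hpair cut he he1 hW hU
  rw [T.Q_split W] at hid
  have hQX : -(T.C * (D * |Cφ|) ^ 2 * e ^ 2) ≤ T.Q (T.P W) (T.P W) := by
    have h1 := (neg_le_abs _).trans (T.abs_Q (T.P W) (T.P W))
    have h2 := mul_le_mul_of_nonneg_left (mul_le_mul hWX hWX (T.l2_nonneg _) (by positivity)) hC0
    nlinarith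
  have h5 : T.c * S.l2 (W - T.P W).1 ^ 2 ≤ T.c * N ^ 2 := by
    linarith [T.anti_pos W, (abs_le.1 (hA e he he1 W hW)).1, hνb e he he1 W U hW hU]
  have ha : S.l2 (W - T.P W).1 ≤ N :=
    (sq_le_sq₀ (T.l2_nonneg _) hN.le).1 (le_of_mul_le_mul_left h5 hcp)
  have h1 : |O.φ (Rt e w)| ≤ T.C * N * S.l2 w.1 + T.C * N * S.l2 w.1 := by
    rw [← hW]
    refine (T.abs_split (T.Q.flip w) W).trans (add_le_add ?_ ?_) <;>
      simp only [LinearMap.flip_apply]
    · exact (T.abs_Q _ _).trans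
        (mul_le_mul_of_nonneg_right (mul_le_mul_of_nonneg_left (hWX.trans hXe) hC0) hl)
    · exact (T.abs_Q _ _).trans
        (mul_le_mul_of_nonneg_right (mul_le_mul_of_nonneg_left ha hC0) hl)
  have h2 : |O.φ (Rt e w - w)| ≤ |O.φ w| / 4 :=
    ((O.φ_bound _).trans (mul_le_mul_of_nonneg_right (le_abs_self _) (T.cN_nonneg _ _))).trans hce
  have h3 : |O.φ w| ≤ |O.φ (Rt e w)| + |O.φ (Rt e w - w)| := by
    rw [map_sub]
    have := abs_sub (O.φ (Rt e w)) (O.φ (Rt e w) - O.φ w)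
    rwa [sub_sub_cancel] at this
  have h4 : T.C * N * S.l2 w.1 + N = |O.φ w| / 4 := by
    simp only [N]; field_simp
  linarith

end core

end Vale.Agent.P204.Full
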