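import Vale.Agent.P204.Full.Global.Norms
import Vale.Agent.P204.Full.Alg.Frame

/-!
P204, step 6: pointwise facts read in the charts of the atlas.
-/

namespace Vale.Agent.P204.Full

open Set Filter Metric
open scoped Manifold ContDiff Topology

universe u

variable {M : Type u} [TopologicalSpace M] [ChartedSpace E4 M] [IsManifold (𝓡 4) ∞ M]

namespace Setup

variable (S : Setup M)

theorem near_readJ (i : Fin S.at_.n) {y : E4} (hy : y ∈ closedBall (0 : E4) 4) :
    Alg.Near (readJ (S.at_.chart i) S.J y) :=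
  ⟨readJ_mul_self S.isJ (S.at_.mem_maximal i) (S.at_.ball_subset i hy), S.at_.near_std i y hy⟩

/-- values on complex lines in an atlas chart -/
theorem lineVal_eq {w : M → E4 → E4 → ℝ} (hw : IsAltField w) (i : Fin S.at_.n) {x : M}
    (hx : x ∈ (S.at_.chart i).source) (v : E4) :
    w x v (S.J x v) = Alg.ev2 (S.read i w (S.at_.chart i x)) (dMap (S.at_.chart i) x v).ofLp
      ((readJ (S.at_.chart i) S.J (S.at_.chart i x)).mulVec
        (dMap (S.at_.chart i) x v).ofLp) := by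
  rw [hw.apply_eq_readC (S.at_.mem_maximal i) hx]
  exact Finset.sum_congr rfl fun a _ => Finset.sum_congr rfl fun b _ => by
    rw [dMap_J S.isJ (S.at_.mem_maximal i) hx]; rfl

theorem F_pos_read (i : Fin S.at_.n) {y : E4} (hy : y ∈ closedBall (0 : E4) 4) {ξ : Fin 4 → ℝ}
    (hξ : ξ ≠ 0) :
    0 < Alg.ev2 (S.read i S.F.1 y) ξ ((readJ (S.at_.chart i) S.J y).mulVec ξ) := by
  set c := S.at_.chart i
  have hc := S.at_.mem_maximal i
  have hyt := S.at_.ball_subset i hy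
  have hsrc := c.map_target hyt
  set v := dInv c y (WithLp.toLp 2 ξ)
  have hv : dMap c (c.symm y) v = WithLp.toLp 2 ξ := dMap_dInv hc hyt _
  have hne : v ≠ 0 := fun h => hξ (by
    have := congrArg WithLp.ofLp hv
    rw [h, ← dMapL_apply, map_zero] at this
    simpa using this.symm)
  have h := S.F_pos (c.symm y) v hne
  rw [S.lineVal_eq S.F.2.isAltField i hsrc, hv, c.right_inv hyt] at h
  exact h

/-- `F` is uniformly positive in the atlas charts -/
theorem exists_F_lower : ∃ m, 0 < m ∧ ∀ i, ∀ y ∈ closedBall (0 : E4) 3, ∀ ξ : Fin 4 → ℝ,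
    m * ‖ξ‖ ^ 2 ≤ Alg.ev2 (S.read i S.F.1 y) ξ ((readJ (S.at_.chart i) S.J y).mulVec ξ) := by
  have key : ∀ i, ∃ m, 0 < m ∧ ∀ y ∈ closedBall (0 : E4) 3, ∀ ξ : Fin 4 → ℝ,
      m * ‖ξ‖ ^ 2 ≤ Alg.ev2 (S.read i S.F.1 y) ξ ((readJ (S.at_.chart i) S.J y).mulVec ξ) := by
    intro i
    set q : E4 × (Fin 4 → ℝ) → ℝ := fun p =>
      Alg.ev2 (S.read i S.F.1 p.1) p.2 ((readJ (S.at_.chart i) S.J p.1).mulVec p.2)
    have hsub : closedBall (0 : E4) 3 ⊆ (S.at_.chart i).target := S.closedBall3_subset i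
    have hq : ContinuousOn q (closedBall (0 : E4) 3 ×ˢ sphere (0 : Fin 4 → ℝ) 1) := by
      have hF : ∀ a b, ContinuousOn (fun p : E4 × (Fin 4 → ℝ) => S.read i S.F.1 p.1 a b)
          (closedBall (0 : E4) 3 ×ˢ sphere (0 : Fin 4 → ℝ) 1) := fun a b =>
        ((continuous_apply_apply a b).comp_continuousOn
          ((S.contDiffOn_read i S.F.2).continuousOn.mono hsub)).comp continuousOn_fst
            fun p hp => hp.1
      have hA : ∀ a b, ContinuousOn
          (fun p : E4 × (Fin 4 → ℝ) => readJ (S.at_.chart i) S.J p.1 a b)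
          (closedBall (0 : E4) 3 ×ˢ sphere (0 : Fin 4 → ℝ) 1) := fun a b =>
        ((contDiffOn_readJ S.isJ (S.at_.mem_maximal i) a b).continuousOn.mono hsub).comp
          continuousOn_fst fun p hp => hp.1
      have hξ : ∀ a, ContinuousOn (fun p : E4 × (Fin 4 → ℝ) => p.2 a)
          (closedBall (0 : E4) 3 ×ˢ sphere (0 : Fin 4 → ℝ) 1) := fun a =>
        ((continuous_apply a).comp continuous_snd).continuousOn
      simp only [q, Alg.ev2, Matrix.mulVec, dotProduct]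
      exact continuousOn_finset_sum _ fun a _ => continuousOn_finset_sum _ fun b _ =>
        ((hξ a).mul (continuousOn_finset_sum _ fun c _ => (hA b c).mul (hξ c))).mul (hF a b)
    obtain ⟨m, hm, hmq⟩ : ∃ m, 0 < m ∧
        ∀ p ∈ closedBall (0 : E4) 3 ×ˢ sphere (0 : Fin 4 → ℝ) 1, m ≤ q p := by
      have hne : (closedBall (0 : E4) 3 ×ˢ sphere (0 : Fin 4 → ℝ) 1).Nonempty :=
        (nonempty_closedBall.2 (by norm_num)).prod (NormedSpace.sphere_nonempty.2 zero_le_one)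
      obtain ⟨p, hp, hmin⟩ :=
        ((isCompact_closedBall _ _).prod (isCompact_sphere _ _)).exists_isMinOn hne hq
      refine ⟨q p, S.F_pos_read i (closedBall_subset_closedBall (by norm_num) hp.1) ?_,
        fun r hr => hmin hr⟩
      exact norm_ne_zero_iff.1 (by simp [mem_sphere_zero_iff_norm.1 hp.2])
    refine ⟨m, hm, fun y hy ξ => ?_⟩
    by_cases hξ : ξ = 0
    · subst hξ; simp [Alg.ev2]
    · have hn : 0 < ‖ξ‖ := norm_pos_iff.2 hξ
      have h := hmq (y, ‖ξ‖⁻¹ • ξ) ⟨hy, by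
        rw [mem_sphere_zero_iff_norm, norm_smul, norm_inv, norm_norm, inv_mul_cancel₀ hn.ne']⟩
      simp only [q, Matrix.mulVec_smul, Alg.ev2_smul_left, Alg.ev2_smul_right] at h
      rw [← mul_assoc, ← sq, inv_pow, inv_mul_eq_div, le_div_iff₀ (pow_pos hn 2)] at h
      linarith
  choose m hm0 hm using key
  rcases isEmpty_or_nonempty (Fin S.at_.n) with h | h
  · exact ⟨1, one_pos, fun i => isEmptyElim i⟩
  · obtain ⟨j, -, hj⟩ := Finset.exists_min_image Finset.univ m Finset.univ_nonempty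
    exact ⟨m j, hm0 j, fun i y hy ξ =>
      (mul_le_mul_of_nonneg_right (hj i (Finset.mem_univ i)) (sq_nonneg _)).trans (hm i y hy ξ)⟩

/-- values on complex lines are dominated by those of `F` -/
theorem exists_dom : ∃ C, 0 ≤ C ∧ ∀ w : M → E4 → E4 → ℝ, IsTwoForm w → ∀ x v,
    |p11 S.J w x v (S.J x v)| ≤ C * S.cN 0 w * S.F.1 x v (S.J x v) := by
  obtain ⟨m, hm, hF⟩ := S.exists_F_lower
  obtain ⟨C, hC, hp⟩ := S.exists_cN_p11 0
  refine ⟨16 * 4 * 2 / m * C, by positivity, fun w hw x v => ?_⟩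
  obtain ⟨i, hi⟩ : ∃ i, S.at_.rho i x ≠ 0 := by
    by_contra! h
    simpa [h] using S.at_.rho_sum x
  obtain ⟨hx, hy⟩ := S.mem_of_rho_ne hi
  have hy3 : S.at_.chart i x ∈ closedBall (0 : E4) 3 :=
    (ball_subset_closedBall.trans (closedBall_subset_closedBall (by norm_num))) hy
  have hA := S.near_readJ i (closedBall_subset_closedBall (by norm_num) hy3)
  have hw' : IsTwoForm (p11 S.J w) := isTwoForm_p11 S.isJ hw
  rw [S.lineVal_eq hw'.isAltField i hx, S.lineVal_eq S.F.2.isAltField i hx]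
  set ξ := (dMap (S.at_.chart i) x v).ofLp
  set A := readJ (S.at_.chart i) S.J (S.at_.chart i x)
  refine (Alg.abs_ev2_le _ _ _).trans ?_
  have h1 : ‖S.read i (p11 S.J w) (S.at_.chart i x)‖ ≤ C * S.cN 0 w :=
    (S.read_le_cN i hw' hy3).trans (hp w hw)
  have h2 : ‖A.mulVec ξ‖ ≤ 4 * 2 * ‖ξ‖ := Alg.norm_mulVec_le hA.norm_le_two ξ
  calc 16 * ‖S.read i (p11 S.J w) (S.at_.chart i x)‖ * ‖ξ‖ * ‖A.mulVec ξ‖
      ≤ 16 * (C * S.cN 0 w) * ‖ξ‖ * (4 * 2 * ‖ξ‖) := by
        refine mul_le_mul (mul_le_mul_of_nonneg_right (by linarith) (norm_nonneg _)) h2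
          (norm_nonneg _) ?_
        have := S.cN_nonneg 0 w
        positivity
    _ = 16 * 4 * 2 / m * C * S.cN 0 w * (m * ‖ξ‖ ^ 2) := by field_simp
    _ ≤ _ := mul_le_mul_of_nonneg_left (hF i _ hy3 ξ) (by have := S.cN_nonneg 0 w; positivity)

end Setup

/-- the reflection `b ↦ 2 (b ∧ G / G ∧ G) G - b` turns the wedge square into a positive form -/
theorem Alg.inv_dual {A : Matrix (Fin 4) (Fin 4) ℝ} (hA : Alg.Near A) {b G : C2} (hb : Anti b)
    (hbi : Alg.Inv A b) (hG : Anti G) (hGi : Alg.Inv A G)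
    (hGp : ∀ v : Fin 4 → ℝ, v ≠ 0 → 0 < Alg.ev2 G v (A.mulVec v)) (hb0 : b ≠ 0) :
    0 < 2 * wdg b G ^ 2 / wdg G G - wdg b b := by
  set P := frame A
  have hP : 0 < P.det := by linarith [hA.det_frame.1]
  set c := pullC P b
  set H := pullC P G
  obtain ⟨c1, c2⟩ := (Alg.inv_J0_iff (Alg.anti_pullC hb P)).1 (Alg.inv_conj hA.mul_frame hbi)
  obtain ⟨g1, g2⟩ := (Alg.inv_J0_iff (Alg.anti_pullC hG P)).1 (Alg.inv_conj hA.mul_frame hGi)
  have hHA : Anti H := Alg.anti_pullC hG P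
  have hcA : Anti c := Alg.anti_pullC hb P
  have hpos : ∀ v : Fin 4 → ℝ, v ≠ 0 → 0 < Alg.ev2 H v (J0.mulVec v) := fun v hv => by
    rw [Alg.ev2_pullC, Matrix.mulVec_mulVec, ← hA.mul_frame, ← Matrix.mulVec_mulVec]
    refine hGp _ fun h0 => hv ?_
    have := (hA.norm_frame_mulVec v).1
    rw [h0, norm_zero] at this
    exact norm_le_zero_iff.1 (by linarith)
  have e : ∀ {u : C2}, Anti u → u 0 2 = u 1 3 → u 0 3 = -u 1 2 →
      ∀ {z : C2}, z 0 2 = z 1 3 → z 0 3 = -z 1 2 → wdg u z =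
        u 0 1 * z 2 3 + u 2 3 * z 0 1 - 2 * (u 0 2 * z 0 2 + u 0 3 * z 0 3) := by
    intro u _ h1 h2 z k1 k2
    simp only [wdg, show u 1 2 = -u 0 3 by linarith, show z 1 2 = -z 0 3 by linarith, ← h1, ← k1]
    ring
  have hA0 : 0 < H 0 1 := by
    have := hpos ![1, 0, 0, 0] (fun h => by simpa using congrFun h 0)
    rw [Alg.ev2_J0 hHA g1 g2] at this
    simpa using this
  set α := H 0 1
  set D := H 2 3
  set P2 := H 0 2
  set Q2 := H 0 3
  have hΔ : 0 < α * D - P2 ^ 2 - Q2 ^ 2 := by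
    have := hpos ![P2, -Q2, 0, α] (fun h => by have := congrFun h 3; simp at this; linarith)
    rw [Alg.ev2_J0 hHA g1 g2] at this
    simp at this
    nlinarith
  set Δ := α * D - P2 ^ 2 - Q2 ^ 2
  set a := c 0 1
  set d := c 2 3
  set p := c 0 2
  set q := c 0 3
  set s := a * D + d * α - 2 * (p * P2 + q * Q2)
  have eb : wdg c H = s := e hcA c1 c2 g1 g2
  have ec : wdg c c = 2 * (a * d - p ^ 2 - q ^ 2) := by rw [e hcA c1 c2 c1 c2]; ring
  have eH : wdg H H = 2 * Δ := by rw [e hHA g1 g2 g1 g2]; ring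
  have hsos : α ^ 2 * (s ^ 2 - Δ * (2 * (a * d - p ^ 2 - q ^ 2))) =
      (α * s - Δ * a) ^ 2 + Δ ^ 2 * a ^ 2 +
        2 * Δ * ((α * p - a * P2) ^ 2 + (α * q - a * Q2) ^ 2) := by
    simp only [s, Δ]; ring
  have hne : ¬(a = 0 ∧ d = 0 ∧ p = 0 ∧ q = 0) := by
    rintro ⟨h1, h2, h3, h4⟩
    refine hb0 (hA.frame_injective (w := b) (z := 0) ?_)
    rw [show pullC (frame A) (0 : C2) = 0 by funext i j; simp [pullC]]
    have hz : ∀ i, c i i = 0 := fun i => by linarith [hcA i i]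
    have e5 : c 1 2 = 0 := by linarith
    have e6 : c 1 3 = 0 := by linarith
    funext i j
    show c i j = 0
    fin_cases i <;> fin_cases j <;> dsimp only [Fin.isValue, Fin.reduceFinMk] <;>
      linarith [hz 0, hz 1, hz 2, hz 3, hcA 0 1, hcA 0 2, hcA 0 3, hcA 1 2, hcA 1 3, hcA 2 3]
  have hpos' : 0 < s ^ 2 - Δ * (2 * (a * d - p ^ 2 - q ^ 2)) := by
    by_contra hn
    rw [not_lt] at hn
    have h0 : (α * s - Δ * a) ^ 2 + Δ ^ 2 * a ^ 2 +
        2 * Δ * ((α * p - a * P2) ^ 2 + (α * q - a * Q2) ^ 2) ≤ 0 := by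
      rw [← hsos]; exact mul_nonpos_of_nonneg_of_nonpos (sq_nonneg _) hn
    have t1 := sq_nonneg (α * s - Δ * a)
    have t2 : 0 ≤ Δ ^ 2 * a ^ 2 := by positivity
    have t3 : 0 ≤ 2 * Δ * ((α * p - a * P2) ^ 2 + (α * q - a * Q2) ^ 2) := by positivity
    have ha : a = 0 := by
      rcases mul_eq_zero.1 (le_antisymm (by linarith) t2) with h | h
      · exact absurd h (by positivity)
      · exact pow_eq_zero_iff two_ne_zero |>.1 h
    have hpq : (α * p - a * P2) ^ 2 + (α * q - a * Q2) ^ 2 = 0 := by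
      rcases mul_eq_zero.1 (le_antisymm (by linarith) t3) with h | h
      · linarith
      · exact h
    have hp : p = 0 := by
      have h := pow_eq_zero_iff two_ne_zero |>.1
        (le_antisymm (by linarith [sq_nonneg (α * q - a * Q2)]) (sq_nonneg (α * p - a * P2)))
      rw [ha] at h
      simpa [hA0.ne'] using h
    have hq : q = 0 := by
      have h := pow_eq_zero_iff two_ne_zero |>.1
        (le_antisymm (by linarith [sq_nonneg (α * p - a * P2)]) (sq_nonneg (α * q - a * Q2)))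
      rw [ha] at h
      simpa [hA0.ne'] using h
    have hs : α * s - Δ * a = 0 :=
      pow_eq_zero_iff two_ne_zero |>.1 (le_antisymm (by linarith) t1)
    refine hne ⟨ha, ?_, hp, hq⟩
    simp only [s, ha, hp, hq] at hs
    simpa [hA0.ne'] using hs
  have hwG : wdg G G = 2 * Δ / P.det := by
    rw [eq_div_iff hP.ne', ← eH, hA.wdg_frame hG hG]; ring
  have hwb : wdg b G = s / P.det := by
    rw [eq_div_iff hP.ne', ← eb, hA.wdg_frame hb hG]; ring
  have hwc : wdg b b = 2 * (a * d - p ^ 2 - q ^ 2) / P.det := by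
    rw [eq_div_iff hP.ne', ← ec, hA.wdg_frame hb hb]; ring
  rw [hwG, hwb, hwc]
  have e9 : 2 * (s / P.det) ^ 2 / (2 * Δ / P.det) - 2 * (a * d - p ^ 2 - q ^ 2) / P.det =
      (s ^ 2 - Δ * (2 * (a * d - p ^ 2 - q ^ 2))) / (Δ * P.det) := by
    field_simp
  rw [e9]
  positivity

end Vale.Agent.P204.Full
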