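import Vale.Agent.P204.Full.End.PosCur

/-!
P204, step 6: the facts about forms used in the final contradiction, and their first consequences.
-/

namespace Vale.Agent.P204.Full

open MeasureTheory Set Filter Topology
open scoped Manifold ContDiff

universe u

variable {M : Type u} [TopologicalSpace M] [ChartedSpace E4 M] [MeasurableSpace M]

/-- the density of a functional at scale `r` -/
noncomputable def dens (S : Setup M) (L : Form M → ℝ) (r : ℝ) (x : M) : ℝ :=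
  ballVal S L r x / r ^ 4

/-- facts about forms on `M` needed in step 6; all are supplied by the global layer -/
structure EndTools (S : Setup M) where
  P : Form M →ₗ[ℝ] Form M
  hP : IsInvPart S P
  Q : Form M →ₗ[ℝ] Form M →ₗ[ℝ] ℝ
  hQ : ∀ a b, Q a b = S.pair a.1 b.1
  Q_comm : ∀ a b, Q a b = Q b a
  Q_ortho : ∀ a b, Q (P a) (b - P b) = 0
  c : ℝ
  c_pos : 0 < c
  C : ℝ
  C_pos : 1 ≤ C
  abs_Q : ∀ a b, |Q a b| ≤ C * S.l2 a.1 * S.l2 b.1
  anti_pos : ∀ a, c * S.l2 (a - P a).1 ^ 2 ≤ Q (a - P a) (a - P a)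
  inv_dual : ∀ a, ∃ η, P η = η ∧ S.l2 η.1 ≤ C * S.l2 (P a).1 ∧ S.l2 (P a).1 ^ 2 ≤ C * Q (P a) η
  l2_nonneg : ∀ w : Form M, 0 ≤ S.l2 w.1
  l2_part : ∀ w, S.l2 (P w).1 ≤ C * S.l2 w.1
  l2_le_sN : ∀ (e : ℝ) (w : Form M), S.l2 w.1 ≤ C * S.sN 0 e w.1
  sN_le_l2 : ∀ (e : ℝ) (w : Form M), S.sN 0 e w.1 ≤ C * S.l2 w.1
  cN_zero_le : ∀ (N : ℕ) (w : Form M), S.cN 0 w.1 ≤ S.cN N w.1
  cN_nonneg : ∀ (N : ℕ) (w : Form M), 0 ≤ S.cN N w.1
  cN_add : ∀ a b : Form M, S.cN 0 (a + b).1 ≤ S.cN 0 a.1 + S.cN 0 b.1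
  nrm_part : ∀ w x, S.nrm (P w).1 x ≤ C * S.cN 0 w.1 ∧ S.nrm (w - P w).1 x ≤ C * S.cN 0 w.1
  dom : ∀ (w : Form M) x v,
    |p11 S.J w.1 x v (S.J x v)| ≤ C * S.cN 0 w.1 * S.F.1 x v (S.J x v)
  exact_closed : ∀ w : Form M, IsExactForm w.1 → IsClosedForm w.1
  closed_of_pair : ∀ w : Form M, (∀ η : Form M, IsExactForm η.1 → Q w η = 0) → IsClosedForm w.1
  bump_form : ∀ r, 0 < r → ∀ x, ∃ w : Form M, ∀ y u v, w.1 y u v = S.bump r x y * S.F.1 y u v
  finite : IsFiniteMeasure S.vol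
  maj_bound : ∀ L, IsPosCur S L → (∃ B, ∀ w : Form M, |L w| ≤ B * S.cN 0 w.1) →
    ∀ r, 0 < r → MajBound S L r (dens S L r)
  dens_cont : ∀ L : Form M →ₗ[ℝ] ℝ, (∃ B, ∀ w : Form M, |L w| ≤ B * S.cN 0 w.1) →
    ∀ r, 0 < r → Continuous (dens S L r)
  dens_mass : ∀ K, 0 < K → ∃ B, 0 ≤ B ∧ ∀ L, IsPosCur S L →
    (∃ B', ∀ w : Form M, |L w| ≤ B' * S.cN 0 w.1) → ∀ e, 0 < e → e ≤ 1 →
      ∫ x, dens S L (K * e) x ∂S.vol ≤ B * L S.F
  nrm_cont : ∀ w : Form M, Continuous (S.nrm w.1)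
  nrm_nonneg : ∀ (w : Form M) x, 0 ≤ S.nrm w.1 x

/-- positivity of the smoothed positive functional, as used in step 6 -/
def RepPos (S : Setup M) (T : EndTools S) (O : Obstruction S)
    (Rt : ℝ → Form M →ₗ[ℝ] Form M) : Prop :=
  ∃ C K : ℝ, 0 < K ∧ ∀ e : ℝ, 0 < e → e ≤ 1 → ∀ TR : Form M,
    (∀ η : Form M, S.pair TR.1 η.1 = O.T (Rt e η)) → ∃ G H : Form M,
      T.P TR = H - (C * e ^ 2) • G ∧ p11 S.J H.1 = H.1 ∧ NonnegJ S.J H.1 ∧
      ∀ x, S.nrm G.1 x ≤ C * dens S O.T (K * e) x ∧ S.nrm H.1 x ≤ C * dens S O.T (K * e) x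

/-- Cauchy-Schwarz for continuous functions -/
theorem integral_mul_le_sqrt {X : Type*} [TopologicalSpace X] [CompactSpace X] [MeasurableSpace X]
    [BorelSpace X] {μ : Measure X} [IsFiniteMeasure μ] {f g : X → ℝ} (hf : Continuous f)
    (hg : Continuous g) :
    ∫ x, f x * g x ∂μ ≤ Real.sqrt (∫ x, f x ^ 2 ∂μ) * Real.sqrt (∫ x, g x ^ 2 ∂μ) := by
  have hi : ∀ {h : X → ℝ}, Continuous h → Integrable h μ :=
    fun h => h.integrable_of_hasCompactSupport (HasCompactSupport.of_compactSpace _)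
  have key : ∀ t : ℝ, 0 ≤ (∫ x, f x ^ 2 ∂μ) * (t * t) + (-2 * ∫ x, f x * g x ∂μ) * t +
      ∫ x, g x ^ 2 ∂μ := fun t => by
    have h : 0 ≤ ∫ x, (t * f x - g x) ^ 2 ∂μ := integral_nonneg fun x => sq_nonneg _
    have e : ∫ x, (t * f x - g x) ^ 2 ∂μ = ∫ x, (t * t * f x ^ 2 + (-2 * t) * (f x * g x)) +
        g x ^ 2 ∂μ := integral_congr_ae (Eventually.of_forall fun x => by ring)
    rw [e, integral_add, integral_add, integral_const_mul, integral_const_mul] at h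
    · linarith
    all_goals exact hi (by fun_prop)
  have h := discrim_le_zero key
  rw [discrim] at h
  refine (le_abs_self _).trans ?_
  rw [← Real.sqrt_mul (integral_nonneg fun x => sq_nonneg _)]
  refine Real.le_sqrt_of_sq_le ?_
  rw [sq_abs]
  nlinarith

namespace EndTools

variable {S : Setup M} (T : EndTools S)
include T

theorem P_idem (w : Form M) : T.P (T.P w) = T.P w :=
  Subtype.ext (by rw [T.hP, T.hP]; exact p11_idem S w)

theorem P_F : T.P S.F = S.F := Subtype.ext (by rw [T.hP, S.F_inv])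

theorem pm_eq (w : Form M) : (w - T.P w).1 = pm S.J w.1 := by
  funext x u v
  have h : (T.P w).1 x u v = p11 S.J w.1 x u v := by rw [T.hP]
  simp only [Submodule.coe_sub, Pi.sub_apply, h, p11, pm]
  ring

theorem pm_self (w : Form M) : pm S.J (w - T.P w).1 = (w - T.P w).1 := by
  rw [T.pm_eq]
  funext x u v
  simp only [pm, J_neg, form_neg_neg]
  ring

/-- a positive functional is bounded by the sup norm -/
theorem posCur_bound {L : Form M →ₗ[ℝ] ℝ} (hL : IsPosCur S L) :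
    ∃ B, ∀ w : Form M, |L w| ≤ B * S.cN 0 w.1 := by
  refine ⟨T.C * L S.F, fun w => ?_⟩
  refine (hL.abs_le T.hP (g := (T.C * S.cN 0 w.1) • S.F) ?_ fun x v => ?_).trans (le_of_eq ?_)
  · exact p11_scalar_mul_F S _ (fun _ => T.C * S.cN 0 w.1) fun x u v => by simp
  · simpa using T.dom w x v
  · rw [map_smul, smul_eq_mul]; ring

theorem ballVal_eq (L : Form M → ℝ) {r : ℝ} (x : M) {w : Form M}
    (hw : ∀ y u v, w.1 y u v = S.bump r x y * S.F.1 y u v) : ballVal S L r x = L w := by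
  have h : {s : ℝ | ∃ w : Form M, (∀ y u v, w.1 y u v = S.bump r x y * S.F.1 y u v) ∧ s = L w} =
      {L w} := by
    ext s
    refine ⟨?_, fun hs => ⟨w, hw, hs⟩⟩
    rintro ⟨w', hw', rfl⟩
    have e : w' = w := Subtype.ext (funext fun y => funext fun u => funext fun v =>
      (hw' y u v).trans (hw y u v).symm)
    rw [e]; rfl
  rw [ballVal, h, csSup_singleton]

theorem dens_nonneg {L : Form M →ₗ[ℝ] ℝ} (hL : IsPosCur S L) {r : ℝ} (hr : 0 < r) (x : M) :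
    0 ≤ dens S L r x := by
  obtain ⟨w, hw⟩ := T.bump_form r hr x
  rw [dens, T.ballVal_eq L x hw]
  refine div_nonneg (hL.nonneg w (p11_scalar_mul_F S w _ hw) fun y v => ?_) (by positivity)
  rw [hw]
  refine mul_nonneg (Real.smoothTransition.nonneg _) ?_
  by_cases hv : v = 0
  · subst hv
    rw [S.F.2.2.1, (S.F.2.1 y _).map_zero, neg_zero]
  · exact (S.F_pos y v hv).le

theorem dens_mono {L L' : Form M →ₗ[ℝ] ℝ} {r : ℝ} (hr : 0 < r) (x : M)
    (hpos : IsPosCur S (L' - L)) : dens S L r x ≤ dens S L' r x := by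
  obtain ⟨w, hw⟩ := T.bump_form r hr x
  have h := T.dens_nonneg hpos hr x
  simp only [dens, T.ballVal_eq _ x hw, LinearMap.sub_apply] at h ⊢
  rw [← sub_nonneg, ← sub_div]
  exact h

theorem dens_split {L L₁ L₂ : Form M → ℝ} (h : ∀ w, L w = L₁ w + L₂ w) {r : ℝ} (hr : 0 < r)
    (x : M) : dens S L r x = dens S L₁ r x + dens S L₂ r x := by
  obtain ⟨w, hw⟩ := T.bump_form r hr x
  simp only [dens, T.ballVal_eq _ x hw, h, add_div]

variable [CompactSpace M] [BorelSpace M]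

theorem pairing_le {L : Form M →ₗ[ℝ] ℝ} (hL : IsPosCur S L) {r : ℝ} (hr : 0 < r) (w : Form M) :
    ∫ x, S.nrm w.1 x * dens S L r x ∂S.vol ≤
      S.l2 w.1 * Real.sqrt (∫ x, dens S L r x ^ 2 ∂S.vol) :=
  haveI := T.finite
  integral_mul_le_sqrt (T.nrm_cont w) (T.dens_cont L (T.posCur_bound hL) r hr)

end EndTools

end Vale.Agent.P204.Full
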