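import Vale.Agent.P204.Full.End.SN
import Vale.Agent.P204.Full.End.Facts
import Vale.Agent.P204.Full.End.Pointwise
import Vale.Agent.P204.Full.End.Tools

/-!
P204, step 6: the facts about forms assembled.
-/

namespace Vale.Agent.P204.Full

open Set Filter Metric MeasureTheory
open scoped Manifold ContDiff Topology

universe u

variable {M : Type u} [TopologicalSpace M] [ChartedSpace E4 M] [IsManifold (𝓡 4) ∞ M]
  [MeasurableSpace M] [BorelSpace M] [CompactSpace M] [T2Space M]

namespace Setup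

variable (S : Setup M)

theorem exists_endTools_of
    (hclosed : ∀ w : Form M, (∀ η : Form M, IsExactForm η.1 → S.pair w.1 η.1 = 0) →
      IsClosedForm w.1)
    (hmaj : ∀ L, IsPosCur S L → (∃ B, ∀ w : Form M, |L w| ≤ B * S.cN 0 w.1) →
      ∀ r, 0 < r → MajBound S L r (dens S L r))
    (hmass : ∀ K, 0 < K → ∃ B, 0 ≤ B ∧ ∀ L, IsPosCur S L →
      (∃ B', ∀ w : Form M, |L w| ≤ B' * S.cN 0 w.1) → ∀ e, 0 < e → e ≤ 1 →
        ∫ x, dens S L (K * e) x ∂S.vol ≤ B * L S.F) :
    Nonempty (EndTools S) := by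
  obtain ⟨c, hc, hanti⟩ := S.exists_anti_pos
  obtain ⟨C₁, hC₁, habs⟩ := S.exists_abs_pair_le
  obtain ⟨C₂, hC₂, hdual⟩ := S.exists_inv_dual
  obtain ⟨C₃, hC₃, hpart⟩ := S.exists_l2_part
  obtain ⟨C₄, hC₄, hsN⟩ := S.exists_l2_le_sN
  obtain ⟨C₅, hC₅, hsN'⟩ := S.exists_sN_le_l2
  obtain ⟨C₆, hC₆, hnrm⟩ := S.exists_nrm_part
  obtain ⟨C₇, hC₇, hdom⟩ := S.exists_dom
  have hl : ∀ w : Form M, 0 ≤ S.l2 w.1 := fun w => Real.sqrt_nonneg _
  have hs : ∀ (e : ℝ) (w : Form M), 0 ≤ S.sN 0 e w.1 := fun e w => by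
    rw [S.sN_zero_eq]
    exact Finset.sum_nonneg fun i _ => Real.sqrt_nonneg _
  set C := C₁ + C₂ + C₃ + C₄ + C₅ + C₆ + C₇ + 1
  refine ⟨{
    P := p11L S.isJ
    hP := S.isInvPart_p11L
    Q := S.pairL
    hQ := fun a b => S.pairL_apply a b
    Q_comm := fun a b => by simp only [S.pairL_apply]; exact S.pair_comm _ _
    Q_ortho := S.pairL_ortho
    c := c
    c_pos := hc
    C := C
    C_pos := by linarith
    abs_Q := fun a b => (habs a b).trans ?_
    anti_pos := hanti
    inv_dual := fun a => ?_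
    l2_nonneg := hl
    l2_part := fun w => (hpart w).trans (mul_le_mul_of_nonneg_right (by linarith) (hl w))
    l2_le_sN := fun e w => (hsN e w).trans (mul_le_mul_of_nonneg_right (by linarith) (hs e w))
    sN_le_l2 := fun e w => (hsN' e w).trans (mul_le_mul_of_nonneg_right (by linarith) (hl w))
    cN_zero_le := fun N w => S.cN_mono (Nat.zero_le N) w.1
    cN_nonneg := fun N w => S.cN_nonneg N w.1
    cN_add := fun a b => S.cN_add_le 0 a.2 b.2
    nrm_part := fun w x => ?_
    dom := fun w x v => ?_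
    exact_closed := fun w hw => hw.isClosedForm
    closed_of_pair := fun w hw => hclosed w fun η hη => (S.pairL_apply w η).symm.trans (hw η hη)
    bump_form := fun r _ x => S.exists_bump_form r x
    finite := inferInstance
    maj_bound := hmaj
    dens_cont := fun L hL r _ => S.continuous_dens hL r
    dens_mass := hmass
    nrm_cont := fun w => S.continuous_nrm w.2
    nrm_nonneg := fun w x => S.nrm_nonneg w.1 x }⟩
  · exact mul_le_mul_of_nonneg_right (mul_le_mul_of_nonneg_right (by linarith) (hl a)) (hl b)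
  · obtain ⟨η, h₁, h₂, h₃⟩ := hdual a
    have hP : 0 ≤ S.l2 (p11L S.isJ a).1 := hl _
    refine ⟨η, h₁, h₂.trans (mul_le_mul_of_nonneg_right (by linarith) hP), ?_⟩
    refine h₃.trans (mul_le_mul_of_nonneg_right (by linarith) ?_)
    by_contra hneg
    rw [not_le] at hneg
    have h0 : S.l2 (p11L S.isJ a).1 = 0 := by nlinarith
    have hb := habs (p11L S.isJ a) η
    rw [h0, mul_zero, zero_mul] at hb
    linarith [(abs_le.1 hb).1]
  · exact ⟨(hnrm w x).1.trans (mul_le_mul_of_nonneg_right (by linarith) (S.cN_nonneg 0 w.1)),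
      (hnrm w x).2.trans (mul_le_mul_of_nonneg_right (by linarith) (S.cN_nonneg 0 w.1))⟩
  · refine (hdom w.1 w.2 x v).trans (mul_le_mul_of_nonneg_right
      (mul_le_mul_of_nonneg_right (by linarith) (S.cN_nonneg 0 w.1)) ?_)
    by_cases hv : v = 0
    · subst hv
      rw [S.F.2.2.1, (S.F.2.1 x _).map_zero, neg_zero]
    · exact (S.F_pos x v hv).le

end Setup

end Vale.Agent.P204.Full
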