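import Vale.Agent.P204.Full.End.WgBounds
import Vale.Agent.P204.Full.Global.Vol

/-!
P204, step 6: the pairing against the square-integral norm.
-/

namespace Vale.Agent.P204.Full

open Set Filter Metric MeasureTheory
open scoped Manifold ContDiff Topology

universe u

variable {M : Type u} [TopologicalSpace M] [ChartedSpace E4 M] [IsManifold (𝓡 4) ∞ M]
  [MeasurableSpace M] [BorelSpace M] [CompactSpace M]

namespace Setup

variable (S : Setup M)

theorem integrable_nrm_sq {w : M → E4 → E4 → ℝ} (hw : IsTwoForm w) :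
    Integrable (fun x => S.nrm w x ^ 2) S.vol :=
  S.integrable_of_continuous ((S.continuous_nrm hw).pow 2)

omit [IsManifold (𝓡 4) ∞ M] [BorelSpace M] [CompactSpace M] in
theorem sq_l2_eq (w : M → E4 → E4 → ℝ) : S.l2 w ^ 2 = ∫ x, S.nrm w x ^ 2 ∂S.vol :=
  Real.sq_sqrt (integral_nonneg fun x => sq_nonneg _)

theorem l2_le_of_pointwise {w η : Form M} {C : ℝ} (hC : 0 ≤ C)
    (h : ∀ x, S.nrm w.1 x ≤ C * S.nrm η.1 x) : S.l2 w.1 ≤ C * S.l2 η.1 := by
  refine (sq_le_sq₀ (Real.sqrt_nonneg _) (mul_nonneg hC (Real.sqrt_nonneg _))).1 ?_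
  show S.l2 w.1 ^ 2 ≤ (C * S.l2 η.1) ^ 2
  rw [mul_pow, S.sq_l2_eq, S.sq_l2_eq, ← integral_const_mul]
  refine integral_mono (S.integrable_nrm_sq w.2) ((S.integrable_nrm_sq η.2).const_mul _) fun x => ?_
  simp only [← mul_pow]
  exact pow_le_pow_left₀ (S.nrm_nonneg _ _) (h x) 2

theorem exists_abs_pair_le : ∃ C, 0 ≤ C ∧ ∀ a b : Form M,
    |S.pairL a b| ≤ C * S.l2 a.1 * S.l2 b.1 := by
  obtain ⟨C, hC, h⟩ := S.exists_abs_wg_le
  refine ⟨C, hC, fun a b => ?_⟩
  have ha := S.continuous_nrm a.2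
  have hb := S.continuous_nrm b.2
  rw [pairL_apply, Setup.pair]
  refine abs_integral_le_integral_abs.trans ((integral_mono ((S.integrable_wg a.2 b.2).abs)
    (S.integrable_of_continuous (show Continuous fun x => C * (S.nrm a.1 x * S.nrm b.1 x) by
      fun_prop)) fun x => ?_).trans ?_)
  · rw [← mul_assoc]
    exact h a.1 b.1 a.2.isAltField b.2.isAltField x
  · rw [integral_const_mul, mul_assoc C]
    exact mul_le_mul_of_nonneg_left (integral_mul_le_sqrt ha hb) hC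

theorem exists_anti_pos : ∃ c, 0 < c ∧ ∀ a : Form M,
    c * S.l2 (a - p11L S.isJ a).1 ^ 2 ≤
      S.pairL (a - p11L S.isJ a) (a - p11L S.isJ a) := by
  obtain ⟨C, hC, h⟩ := S.exists_pm_wg_ge
  refine ⟨1 / (C + 1), by positivity, fun a => ?_⟩
  set b := a - p11L S.isJ a
  have e : b.1 = pm S.J a.1 := by
    funext y u v
    simp only [b, Submodule.coe_sub, Pi.sub_apply, p11L_coe, p11, pm]
    ring
  have hle : S.l2 b.1 ^ 2 ≤ (C + 1) * S.pairL b b := by
    rw [S.sq_l2_eq, pairL_apply, Setup.pair, ← integral_const_mul]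
    refine integral_mono (S.integrable_nrm_sq b.2) ((S.integrable_wg b.2 b.2).const_mul _)
      fun x => ?_
    rw [e]
    have h1 := h a.1 a.2 x
    have h2 : 0 ≤ C * wg S.F.1 (pm S.J a.1) (pm S.J a.1) x := (sq_nonneg _).trans h1
    rcases hC.eq_or_lt with h0 | h0
    · rw [← h0, zero_mul] at h1
      have h3 : S.nrm (pm S.J a.1) x = 0 :=
        pow_eq_zero_iff two_ne_zero |>.1 (le_antisymm h1 (sq_nonneg _))
      obtain ⟨C', hC', hw⟩ := S.exists_abs_wg_le
      have h4 := hw _ _ (isTwoForm_pm S.isJ a.2).isAltField (isTwoForm_pm S.isJ a.2).isAltField x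
      rw [h3, mul_zero] at h4
      have h5 := abs_nonpos_iff.1 h4
      show S.nrm (pm S.J a.1) x ^ 2 ≤ _
      rw [h3, h5]
      simp
    · have h3 : 0 ≤ wg S.F.1 (pm S.J a.1) (pm S.J a.1) x := by nlinarith
      exact h1.trans (mul_le_mul_of_nonneg_right (by linarith) h3)
  rw [one_div, inv_mul_le_iff₀ (by positivity)]
  exact hle

theorem exists_inv_dual : ∃ C, 0 ≤ C ∧ ∀ a : Form M, ∃ η, p11L S.isJ η = η ∧
    S.l2 η.1 ≤ C * S.l2 (p11L S.isJ a).1 ∧
      S.l2 (p11L S.isJ a).1 ^ 2 ≤ C * S.pairL (p11L S.isJ a) η := by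
  obtain ⟨C, hC, h⟩ := S.exists_inv_test
  refine ⟨C, hC, fun a => ?_⟩
  obtain ⟨η, hη, hb⟩ := h a
  refine ⟨η, hη, S.l2_le_of_pointwise hC fun x => (hb x).1, ?_⟩
  rw [S.sq_l2_eq, pairL_apply, Setup.pair, ← integral_const_mul]
  exact integral_mono (S.integrable_nrm_sq (p11L S.isJ a).2)
    ((S.integrable_wg (p11L S.isJ a).2 η.2).const_mul _) fun x => (hb x).2

theorem exists_l2_part : ∃ C, 0 ≤ C ∧ ∀ w : Form M, S.l2 (p11L S.isJ w).1 ≤ C * S.l2 w.1 := by
  obtain ⟨C, hC, h⟩ := S.exists_nrm_p11_le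
  exact ⟨C, hC, fun w => S.l2_le_of_pointwise hC fun x => h w.1 w.2.isAltField x⟩

theorem pairL_ortho (a b : Form M) : S.pairL (p11L S.isJ a) (b - p11L S.isJ b) = 0 := by
  have e : (b - p11L S.isJ b).1 = pm S.J b.1 := by
    funext y u v
    simp only [Submodule.coe_sub, Pi.sub_apply, p11L_coe, p11, pm]
    ring
  rw [pairL_apply, e, p11L_coe]
  exact S.pair_p11_pm a b

end Setup

end Vale.Agent.P204.Full
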