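import Vale.Agent.P204.Full.Spec

/-!
P204, step 6: positive invariant functionals on smoothed forms.
A bound of the value on the smoothed form by the integral of the pointwise norm against the
majorant density `m` of the functional follows from the pointwise bounds of `Mollif`.
-/

namespace Vale.Agent.P204.Full

open MeasureTheory Set Filter Topology
open scoped Manifold ContDiff

universe u

variable {M : Type u} [TopologicalSpace M] [ChartedSpace E4 M] {S : Setup M}

/-- a positive functional factoring through the invariant part -/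
structure IsPosCur (S : Setup M) (L : Form M →ₗ[ℝ] ℝ) : Prop where
  inv : ∀ w η : Form M, η.1 = p11 S.J w.1 → L η = L w
  nonneg : ∀ w : Form M, p11 S.J w.1 = w.1 → NonnegJ S.J w.1 → 0 ≤ L w

/-- an invariant-part projection of forms -/
def IsInvPart (S : Setup M) (P : Form M →ₗ[ℝ] Form M) : Prop := ∀ w, (P w).1 = p11 S.J w.1

theorem J_neg (S : Setup M) (x : M) (v : E4) : S.J x (S.J x v) = -v := S.isJ.2.1 x v

theorem form_neg_neg (w : Form M) (x : M) (u v : E4) : w.1 x (-u) (-v) = w.1 x u v := by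
  have hl : ∀ a, IsLinearMap ℝ (w.1 x a) := fun a => w.2.1 x a
  rw [(hl (-u)).map_neg, w.2.2.1 x v (-u), (hl v).map_neg, w.2.2.1 x u v]
  ring

theorem p11_idem (S : Setup M) (w : Form M) : p11 S.J (p11 S.J w.1) = p11 S.J w.1 := by
  funext x u v
  simp only [p11, J_neg, form_neg_neg]
  ring

theorem pm_of_inv_zero {w : M → E4 → E4 → ℝ} (h : p11 S.J w = w) : pm S.J w = 0 := by
  funext x u v
  have := congrFun (congrFun (congrFun h x) u) v
  simp only [p11] at this
  simp only [pm, Pi.zero_apply]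
  linarith

namespace IsPosCur

variable {L : Form M →ₗ[ℝ] ℝ} (hL : IsPosCur S L) {P : Form M →ₗ[ℝ] Form M}
include hL

/-- monotone for the order of values on complex lines -/
theorem mono (hP : IsInvPart S P) {a b : Form M}
    (h : ∀ x v, p11 S.J a.1 x v (S.J x v) ≤ p11 S.J b.1 x v (S.J x v)) : L a ≤ L b := by
  have h0 : 0 ≤ L (P (b - a)) := by
    refine hL.nonneg _ (by rw [hP]; exact p11_idem S _) fun x v => ?_
    rw [hP]
    have h1 := h x v
    simp only [p11, Submodule.coe_sub, Pi.sub_apply] at h1 ⊢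
    linarith
  rw [hL.inv (b - a) _ (hP _), map_sub] at h0
  linarith

/-- domination by an invariant form -/
theorem abs_le (hP : IsInvPart S P) {a g : Form M} (hg : p11 S.J g.1 = g.1)
    (h : ∀ x v, |p11 S.J a.1 x v (S.J x v)| ≤ g.1 x v (S.J x v)) : |L a| ≤ L g := by
  rw [_root_.abs_le]
  constructor
  · rw [neg_le, ← map_neg]
    refine hL.mono hP fun x v => ?_
    rw [hg]
    have := (_root_.abs_le.1 (h x v)).1
    simp only [p11, Submodule.coe_neg, Pi.neg_apply] at this ⊢
    linarith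
  · refine hL.mono hP fun x v => ?_
    rw [hg]
    exact le_of_abs_le (h x v)

/-- a lower bound by an invariant form -/
theorem neg_le (hP : IsInvPart S P) {a g : Form M} (hg : p11 S.J g.1 = g.1)
    (h : ∀ x v, -g.1 x v (S.J x v) ≤ p11 S.J a.1 x v (S.J x v)) : -L g ≤ L a := by
  rw [← map_neg]
  refine hL.mono hP fun x v => ?_
  have h1 := h x v
  have h2 := congrFun (congrFun (congrFun hg x) v) (S.J x v)
  simp only [p11, Submodule.coe_neg, Pi.neg_apply] at h1 h2 ⊢
  linarith

end IsPosCur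

theorem p11_scalar_mul_F (S : Setup M) (G : Form M) (f : M → ℝ)
    (h : ∀ x u v, G.1 x u v = f x * S.F.1 x u v) : p11 S.J G.1 = G.1 := by
  funext x u v
  have := congrFun (congrFun (congrFun S.F_inv x) u) v
  simp only [p11, h] at this ⊢
  linear_combination (f x) * this

variable [MeasurableSpace M]

/-- `m` is a majorant density of `L` at scale `r` -/
def MajBound (S : Setup M) (L : Form M →ₗ[ℝ] ℝ) (r : ℝ) (m : M → ℝ) : Prop :=
  ∀ w : Form M, ∃ G : Form M, (∀ x u v, G.1 x u v = S.maj r (S.nrm w.1) x * S.F.1 x u v) ∧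
    L G ≤ ∫ x, S.nrm w.1 x * m x ∂S.vol

variable {op : ℝ → Form M →ₗ[ℝ] Form M}

/-- the three kernel inequalities of a smoothing family, for one positive functional -/
theorem exists_kernel_bounds (hop : Mollif S op) :
    ∃ C K K₁ K₂ : ℝ, 0 < C ∧ 0 < K ∧ 0 < K₁ ∧ 0 < K₂ ∧
      ∀ L : Form M →ₗ[ℝ] ℝ, IsPosCur S L → ∀ P, IsInvPart S P → ∀ e : ℝ, 0 < e → e ≤ 1 →
        ∀ (m : M → ℝ) (w : Form M),
        (MajBound S L (K * e) m → |L (op e w)| ≤ C * ∫ x, S.nrm w.1 x * m x ∂S.vol) ∧
        (MajBound S L (K₁ * e) m → pm S.J w.1 = w.1 →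
          |L (op e w)| ≤ C * e * ∫ x, S.nrm w.1 x * m x ∂S.vol) ∧
        (MajBound S L (K₂ * e) m → p11 S.J w.1 = w.1 → NonnegJ S.J w.1 →
          -(C * e ^ 2 * ∫ x, S.nrm w.1 x * m x ∂S.vol) ≤ L (op e w)) := by
  obtain ⟨C₀, K, hK, h0⟩ := hop.sup_kernel
  obtain ⟨C₁, K₁, hK₁, h1⟩ := hop.pos_anti
  obtain ⟨C₂, K₂, hK₂, h2⟩ := hop.pos_inv
  set C := |C₀| + |C₁| + |C₂| + 1
  have hC : 0 < C := by positivity
  refine ⟨C, K, K₁, K₂, hC, hK, hK₁, hK₂, fun L hL P hP e he he1 m w => ?_⟩
  have key : ∀ (G : Form M) (f : M → ℝ) (c : ℝ),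
      (∀ x u v, G.1 x u v = f x * S.F.1 x u v) → ∀ x v,
        (c • G).1 x v (S.J x v) = c * f x * S.F.1 x v (S.J x v) := fun G f c hG x v => by
    simp only [Submodule.coe_smul, Pi.smul_apply, smul_eq_mul, hG]
    ring
  have inv : ∀ (G : Form M) (f : M → ℝ) (c : ℝ), (∀ x u v, G.1 x u v = f x * S.F.1 x u v) →
      p11 S.J (c • G).1 = (c • G).1 := fun G f c hG =>
    p11_scalar_mul_F S _ (fun x => c * f x) fun x u v => by
      simp only [Submodule.coe_smul, Pi.smul_apply, smul_eq_mul, hG]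
      ring
  have Fpos : ∀ x v, 0 ≤ S.F.1 x v (S.J x v) := fun x v => by
    by_cases hv : v = 0
    · subst hv
      rw [S.F.2.2.1, (S.F.2.1 x _).map_zero, neg_zero]
    · exact (S.F_pos x v hv).le
  have majnn : ∀ r, 0 < r → ∀ x, 0 ≤ S.maj r (S.nrm w.1) x := fun r hr x =>
    div_nonneg (integral_nonneg fun y => mul_nonneg (Real.smoothTransition.nonneg _)
      (Finset.sum_nonneg fun i _ => mul_nonneg (S.at_.rho_nonneg i y) (norm_nonneg _)))
      (by positivity)
  refine ⟨fun hm => ?_, fun hm hw => ?_, fun hm hw hw0 => ?_⟩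
  · obtain ⟨G, hG, hGm⟩ := hm w
    refine (hL.abs_le hP (g := C • G) (inv G _ C hG) fun x v => ?_).trans ?_
    · rw [key G _ C hG]
      refine (h0 e he he1 w x v).trans ?_
      refine mul_le_mul_of_nonneg_right (mul_le_mul_of_nonneg_right ?_ (majnn _ (by positivity) x))
        (Fpos x v)
      linarith [le_abs_self C₀, abs_nonneg C₁, abs_nonneg C₂]
    · rw [map_smul, smul_eq_mul]
      exact mul_le_mul_of_nonneg_left hGm hC.le
  · obtain ⟨G, hG, hGm⟩ := hm w
    refine (hL.abs_le hP (g := (C * e) • G) (inv G _ _ hG) fun x v => ?_).trans ?_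
    · rw [key G _ _ hG]
      refine (h1 e he he1 w hw x v).trans ?_
      refine mul_le_mul_of_nonneg_right (mul_le_mul_of_nonneg_right
        (mul_le_mul_of_nonneg_right ?_ he.le) (majnn _ (by positivity) x)) (Fpos x v)
      linarith [le_abs_self C₁, abs_nonneg C₀, abs_nonneg C₂]
    · rw [map_smul, smul_eq_mul]
      exact mul_le_mul_of_nonneg_left hGm (by positivity)
  · obtain ⟨G, hG, hGm⟩ := hm w
    refine le_trans ?_ (hL.neg_le hP (g := (C * e ^ 2) • G) (inv G _ _ hG) fun x v => ?_)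
    · rw [map_smul, smul_eq_mul, neg_le_neg_iff]
      exact mul_le_mul_of_nonneg_left hGm (by positivity)
    · rw [key G _ _ hG]
      refine le_trans (neg_le_neg ?_) (h2 e he he1 w hw hw0 x v)
      refine mul_le_mul_of_nonneg_right (mul_le_mul_of_nonneg_right
        (mul_le_mul_of_nonneg_right ?_ (by positivity)) (majnn _ (by positivity) x)) (Fpos x v)
      linarith [le_abs_self C₂, abs_nonneg C₀, abs_nonneg C₁]

end Vale.Agent.P204.Full
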