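import Vale.Agent.P204.Full.End.L2

/-!
P204, step 6: the square-integral norm is equivalent to the zeroth semiclassical norm.
-/

namespace Vale.Agent.P204.Full

open Set Filter Metric MeasureTheory
open scoped Manifold ContDiff Topology

universe u

variable {M : Type u} [TopologicalSpace M] [ChartedSpace E4 M] [IsManifold (𝓡 4) ∞ M]
  [MeasurableSpace M] [BorelSpace M] [CompactSpace M] [T2Space M]

namespace Setup

variable (S : Setup M)

omit [IsManifold (𝓡 4) ∞ M] [MeasurableSpace M] [BorelSpace M] [CompactSpace M] [T2Space M] in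
theorem sN_zero_eq (e : ℝ) (w : M → E4 → E4 → ℝ) :
    S.sN 0 e w = ∑ i, Real.sqrt (∫ y in closedBall (0 : E4) 2, ‖S.read i w y‖ ^ 2) := by
  simp [Setup.sN]

theorem integrableOn_read_sq (i : Fin S.at_.n) {w : M → E4 → E4 → ℝ} (hw : IsTwoForm w) {r : ℝ}
    (hr : r ≤ 3) :
    IntegrableOn (fun y => ‖S.read i w y‖ ^ 2) (closedBall (0 : E4) r) volume :=
  ((((S.contDiffOn_read i hw).continuousOn.mono (S.closedBall3_subset i)).mono
    (closedBall_subset_closedBall hr)).norm.pow 2).integrableOn_compact (isCompact_closedBall _ _)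

theorem exists_l2_le_sN : ∃ C, 0 ≤ C ∧ ∀ (e : ℝ) (w : Form M), S.l2 w.1 ≤ C * S.sN 0 e w.1 := by
  obtain ⟨d, D, hd, hD, hdd⟩ := S.exists_density_bounds
  refine ⟨Real.sqrt D, Real.sqrt_nonneg _, fun e w => ?_⟩
  set a : Fin S.at_.n → ℝ := fun i =>
    Real.sqrt (∫ y in closedBall (0 : E4) 2, ‖S.read i w.1 y‖ ^ 2)
  have ha : ∀ i, 0 ≤ a i := fun i => Real.sqrt_nonneg _
  set f : Fin S.at_.n → M → ℝ :=
    fun k x => S.at_.rho k x * ‖S.read k w.1 (S.at_.chart k x)‖ ^ 2
  have hf : ∀ k, Continuous (f k) := by
    intro k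
    refine continuous_iff_continuousAt.2 fun x => ?_
    by_cases hx : x ∈ tsupport (S.at_.rho k)
    · have hs := (S.at_.rho_support k hx).1
      exact ((S.at_.rho_smooth k).continuous.continuousAt).mul
        (((((S.contDiffOn_read k w.2).continuousOn.continuousAt
          ((S.at_.chart k).open_target.mem_nhds ((S.at_.chart k).map_source hs))).comp
            ((S.at_.chart k).continuousAt hs))).norm.pow 2)
    · refine (continuousAt_const (y := (0 : ℝ))).congr ?_
      filter_upwards [notMem_tsupport_iff_eventuallyEq.1 hx] with z hz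
      simp [f, hz]
  have hpt : ∀ x, S.nrm w.1 x ^ 2 ≤ ∑ k, f k x := by
    intro x
    have h := Finset.sum_mul_sq_le_sq_mul_sq Finset.univ (fun k => Real.sqrt (S.at_.rho k x))
      (fun k => Real.sqrt (S.at_.rho k x) * ‖S.read k w.1 (S.at_.chart k x)‖)
    simp only [← mul_assoc, Real.mul_self_sqrt (S.at_.rho_nonneg _ x), mul_pow,
      Real.sq_sqrt (S.at_.rho_nonneg _ x), S.at_.rho_sum, one_mul] at h
    exact h
  have hk : ∀ k, ∫ x, f k x ∂S.vol ≤ D * a k ^ 2 := by
    intro k
    have hsupp : tsupport (f k) ⊆ tsupport (S.at_.rho k) :=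
      tsupport_mul_subset_left
    rw [S.integral_vol_read k (hf k) fun x hx =>
      ⟨(S.at_.rho_support k (hsupp hx)).1, ball_subset_closedBall.trans
        (closedBall_subset_closedBall (by norm_num)) (S.at_.rho_support k (hsupp hx)).2⟩]
    rw [setIntegral_eq_of_subset_of_forall_sdiff_eq_zero measurableSet_closedBall
      (closedBall_subset_closedBall (show (2 : ℝ) ≤ 4 by norm_num)) fun y hy => ?_]
    · rw [Real.sq_sqrt (integral_nonneg fun y => sq_nonneg _), ← integral_const_mul]
      refine setIntegral_mono_on ?_ ((S.integrableOn_read_sq k w.2 (by norm_num)).const_mul _)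
        measurableSet_closedBall fun y hy => ?_
      · have hsub : closedBall (0 : E4) 2 ⊆ (S.at_.chart k).target :=
          (closedBall_subset_closedBall (by norm_num)).trans (S.at_.ball_subset k)
        refine (((hf k).comp_continuousOn ((S.at_.chart k).symm.continuousOn.mono hsub)).mul
          ?_).integrableOn_compact (isCompact_closedBall _ _)
        refine ((S.continuousOn_densC (S.at_.mem_maximal k)).mono hsub).congr fun z hz => ?_
        exact (S.densC_eq k (closedBall_subset_closedBall (by norm_num) hz)).symm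
      · have hy3 := closedBall_subset_closedBall (show (2 : ℝ) ≤ 3 by norm_num) hy
        have hb := hdd k y hy3
        have hsum : S.at_.rho k ((S.at_.chart k).symm y) ≤ 1 := by
          rw [← S.at_.rho_sum ((S.at_.chart k).symm y)]
          exact Finset.single_le_sum (fun j _ => S.at_.rho_nonneg j _) (Finset.mem_univ k)
        have hyt := S.closedBall3_subset k hy3
        simp only [f, (S.at_.chart k).right_inv hyt]
        calc _ ≤ 1 * ‖S.read k w.1 y‖ ^ 2 *
              (wdg (S.read k S.F.1 y) (S.read k S.F.1 y) / 2) := by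
              refine mul_le_mul_of_nonneg_right (mul_le_mul_of_nonneg_right hsum (sq_nonneg _)) ?_
              linarith [hb.1]
          _ ≤ D * ‖S.read k w.1 y‖ ^ 2 := by
              rw [one_mul, mul_comm D]
              exact mul_le_mul_of_nonneg_left (by linarith [hb.1, hb.2]) (sq_nonneg _)
    · have h0 : f k ((S.at_.chart k).symm y) = 0 := by
        by_contra hne
        have h1 := (S.at_.rho_support k (hsupp (subset_tsupport _ hne))).2
        rw [mem_preimage, (S.at_.chart k).right_inv
          (S.at_.ball_subset k hy.1)] at h1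
        exact hy.2 (ball_subset_closedBall.trans (closedBall_subset_closedBall (by norm_num)) h1)
      rw [h0, zero_mul]
  have h1 : S.l2 w.1 ^ 2 ≤ D * ∑ k, a k ^ 2 := by
    rw [S.sq_l2_eq, Finset.mul_sum]
    refine (integral_mono (S.integrable_nrm_sq w.2)
      (integrable_finsetSum _ fun k _ => S.integrable_of_continuous (hf k)) hpt).trans ?_
    rw [integral_finsetSum _ fun k _ => S.integrable_of_continuous (hf k)]
    exact Finset.sum_le_sum fun k _ => hk k
  have h2 : ∑ k, a k ^ 2 ≤ (∑ k, a k) ^ 2 := Finset.sum_sq_le_sq_sum_of_nonneg fun k _ => ha k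
  rw [S.sN_zero_eq]
  refine (sq_le_sq₀ (Real.sqrt_nonneg _)
    (mul_nonneg (Real.sqrt_nonneg _) (Finset.sum_nonneg fun k _ => ha k))).1 ?_
  show S.l2 w.1 ^ 2 ≤ (Real.sqrt D * ∑ k, a k) ^ 2
  rw [mul_pow, Real.sq_sqrt hD.le]
  exact h1.trans (mul_le_mul_of_nonneg_left h2 hD.le)

theorem exists_sN_le_l2 : ∃ C, 0 ≤ C ∧ ∀ (e : ℝ) (w : Form M), S.sN 0 e w.1 ≤ C * S.l2 w.1 := by
  obtain ⟨d, D, hd, hD, hdd⟩ := S.exists_density_bounds
  obtain ⟨C₀, hC₀, hr⟩ := S.exists_read_le_nrm
  refine ⟨S.at_.n * (C₀ * Real.sqrt (2 / d)), by positivity, fun e w => ?_⟩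
  rw [S.sN_zero_eq]
  have hk : ∀ i, Real.sqrt (∫ y in closedBall (0 : E4) 2, ‖S.read i w.1 y‖ ^ 2) ≤
      C₀ * Real.sqrt (2 / d) * S.l2 w.1 := by
    intro i
    set c := S.at_.chart i
    have hc := S.at_.mem_maximal i
    set χ : ContDiffBump (0 : E4) :=
      { rIn := 2, rOut := 5 / 2, rIn_pos := by norm_num, rIn_lt_rOut := by norm_num }
    have hsub : closedBall (0 : E4) 3 ⊆ c.target := S.closedBall3_subset i
    have hχ0 : ∀ y ∈ c.target, y ∉ closedBall (0 : E4) (5 / 2) → χ y = 0 := fun y _ hy =>
      χ.zero_of_le_dist (le_of_lt (by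
        rw [mem_closedBall, not_le] at hy; exact hy))
    have hgs : IsSmoothFn (extF c χ) := isSmoothFn_extF hc (isCompact_closedBall _ _)
      ((closedBall_subset_closedBall (by norm_num)).trans hsub) χ.contDiff.contDiffOn hχ0
    set g := extF c χ
    have hg0 : ∀ x, 0 ≤ g x := fun x => Set.indicator_nonneg (fun z _ => χ.nonneg) x
    have hg1 : ∀ x, g x ≤ 1 := fun x => by
      simp only [g, extF]
      by_cases hx : x ∈ c.source
      · rw [Set.indicator_of_mem hx]; exact χ.le_one
      · rw [Set.indicator_of_notMem hx]; exact zero_le_one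
    set f : M → ℝ := fun x => g x * S.nrm w.1 x ^ 2
    have hf : Continuous f := hgs.continuous.mul ((S.continuous_nrm w.2).pow 2)
    have hts : tsupport f ⊆ c.source ∩ c ⁻¹' closedBall (0 : E4) 4 := by
      have hcl : IsClosed (c.symm '' closedBall (0 : E4) (5 / 2)) :=
        ((isCompact_closedBall _ _).image_of_continuousOn (c.symm.continuousOn.mono
          ((closedBall_subset_closedBall (by norm_num)).trans hsub))).isClosed
      refine (closure_minimal (fun x hx => ?_) hcl).trans ?_
      · have hgx : g x ≠ 0 := left_ne_zero_of_mul hx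
        have hxs : x ∈ c.source := by
          by_contra h
          exact hgx (Set.indicator_of_notMem h _)
        refine ⟨c x, ?_, c.left_inv hxs⟩
        by_contra h
        apply hgx
        simp only [g, extF, Set.indicator_of_mem hxs]
        exact hχ0 _ (c.map_source hxs) h
      · rintro _ ⟨y, hy, rfl⟩
        have hyt := ((closedBall_subset_closedBall (by norm_num)).trans hsub) hy
        refine ⟨c.map_target hyt, ?_⟩
        rw [mem_preimage, c.right_inv hyt]
        exact closedBall_subset_closedBall (by norm_num) hy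
    have h1 : ∫ x, f x ∂S.vol ≤ S.l2 w.1 ^ 2 := by
      rw [S.sq_l2_eq]
      exact integral_mono (S.integrable_of_continuous hf) (S.integrable_nrm_sq w.2) fun x =>
        mul_le_of_le_one_left (sq_nonneg _) (hg1 x)
    rw [S.integral_vol_read i hf hts] at h1
    have hint : IntegrableOn (fun y => f (c.symm y) *
        (wdg (S.read i S.F.1 y) (S.read i S.F.1 y) / 2)) (closedBall (0 : E4) 4) volume := by
      refine ((hf.comp_continuousOn (c.symm.continuousOn.mono (S.at_.ball_subset i))).mul
        ?_).integrableOn_compact (isCompact_closedBall _ _)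
      exact ((S.continuousOn_densC hc).mono (S.at_.ball_subset i)).congr fun z hz =>
        (S.densC_eq i hz).symm
    have h2 : ∫ y in closedBall (0 : E4) 2, ‖S.read i w.1 y‖ ^ 2 ≤
        C₀ ^ 2 * (2 / d) * ∫ y in closedBall (0 : E4) 4,
          f (c.symm y) * (wdg (S.read i S.F.1 y) (S.read i S.F.1 y) / 2) := by
      rw [← integral_const_mul]
      refine le_trans (setIntegral_mono_on (S.integrableOn_read_sq i w.2 (by norm_num))
        ((hint.mono_set (closedBall_subset_closedBall (by norm_num))).const_mul _)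
        measurableSet_closedBall fun y hy => ?_)
        (setIntegral_mono_set (hint.const_mul _) ?_
          (closedBall_subset_closedBall (by norm_num)).eventuallyLE)
      · have hy3 := closedBall_subset_closedBall (show (2 : ℝ) ≤ 3 by norm_num) hy
        have hy4 := closedBall_subset_closedBall (show (2 : ℝ) ≤ 4 by norm_num) hy
        have hb := (hdd i y hy3).1
        have h3 := hr w.1 w.2.isAltField i y hy4
        have hfy : f (c.symm y) = S.nrm w.1 (c.symm y) ^ 2 := by
          simp only [f, g, extF_symm c _ (hsub hy3), χ.one_of_mem_closedBall hy, one_mul]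
        rw [hfy]
        have h4 := pow_le_pow_left₀ (norm_nonneg _) h3 2
        rw [mul_pow] at h4
        refine h4.trans ?_
        have h5 : (1 : ℝ) ≤ 2 / d * (wdg (S.read i S.F.1 y) (S.read i S.F.1 y) / 2) := by
          rw [div_mul_div_comm, le_div_iff₀ (by positivity)]
          linarith
        calc C₀ ^ 2 * S.nrm w.1 (c.symm y) ^ 2 =
              C₀ ^ 2 * S.nrm w.1 (c.symm y) ^ 2 * 1 := (mul_one _).symm
          _ ≤ _ := mul_le_mul_of_nonneg_left h5 (by positivity)
          _ = _ := by ring
      · refine ae_restrict_of_forall_mem measurableSet_closedBall fun y hy => ?_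
        refine mul_nonneg (by positivity) (mul_nonneg (mul_nonneg (hg0 _) (sq_nonneg _)) ?_)
        linarith [S.wdg_read_F_pos i hy]
    rw [Real.sqrt_le_iff]
    refine ⟨mul_nonneg (mul_nonneg hC₀.le (Real.sqrt_nonneg _)) (Real.sqrt_nonneg _), ?_⟩
    rw [mul_pow, mul_pow, Real.sq_sqrt (div_nonneg two_pos.le hd.le)]
    exact h2.trans (mul_le_mul_of_nonneg_left h1 (by positivity))
  refine (Finset.sum_le_sum fun i _ => hk i).trans (le_of_eq ?_)
  rw [Finset.sum_const, Finset.card_univ, Fintype.card_fin, nsmul_eq_mul]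
  ring

end Setup

end Vale.Agent.P204.Full
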